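import Mathlib
import Vale.Agent.P279.Bdl.B1

/-!
# Curves through generic points specialise to curves through arbitrary points
-/

set_option linter.all false

namespace Vale.Agent.N279

open MvPolynomial Vale.Agent.P279 Vale.Agent.P279.Gen

variable {ι : Type}

/-- A nonzero polynomial with exponents in `S` and multiplicities at least `m i` at `q i`. -/
def Ex {R : Type*} [CommRing R] (S : Finset (Fin 2 →₀ ℕ)) (m : ι → ℕ) (q : ι → Fin 2 → R) : Prop :=
  ∃ P : MvPolynomial (Fin 2) R, P ≠ 0 ∧ P.support ⊆ S ∧ ∀ i, MultGE (q i) (m i) P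

/-- The matrix of the vanishing conditions. -/
noncomputable def mat {R : Type*} [CommRing R] (S : Finset (Fin 2 →₀ ℕ)) (m : ι → ℕ)
    (q : ι → Fin 2 → R) : Matrix (Σ i, RowsAt (m i)) S R :=
  fun x δ => coeff x.2.1 (shift (q x.1) (monomial δ.1 1))

theorem mat_map {R T : Type*} [CommRing R] [CommRing T] (φ : R →+* T) (S : Finset (Fin 2 →₀ ℕ))
    (m : ι → ℕ) (q : ι → Fin 2 → R) : (mat S m q).map φ = mat S m (fun i k => φ (q i k)) := by
  ext x δ
  simp only [Matrix.map_apply, mat]
  rw [← coeff_map, map_shift, map_monomial, map_one]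

noncomputable def poly {R : Type*} [CommRing R] {S : Finset (Fin 2 →₀ ℕ)} (x : S → R) :
    MvPolynomial (Fin 2) R :=
  ∑ δ, monomial δ.1 (x δ)

theorem coeff_poly {R : Type*} [CommRing R] {S : Finset (Fin 2 →₀ ℕ)} (x : S → R) (δ : S) :
    coeff δ.1 (poly x) = x δ := by
  classical
  simp only [poly, coeff_sum, coeff_monomial]
  rw [Finset.sum_eq_single δ]
  · simp
  · intro e _ he
    rw [if_neg]
    exact fun h => he (Subtype.ext h)
  · simp only [Finset.mem_univ, not_true_eq_false, ↓reduceIte, IsEmpty.forall_iff]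

theorem coeff_poly_of_not {R : Type*} [CommRing R] {S : Finset (Fin 2 →₀ ℕ)} (x : S → R)
    {ε : Fin 2 →₀ ℕ} (hε : ε ∉ S) : coeff ε (poly x) = 0 := by
  classical
  rw [poly, coeff_sum]
  refine Finset.sum_eq_zero fun δ _ => ?_
  rw [coeff_monomial, if_neg]
  rintro rfl
  exact hε δ.2

theorem coeff_shift_poly {R : Type*} [CommRing R] {S : Finset (Fin 2 →₀ ℕ)} (m : ι → ℕ)
    (q : ι → Fin 2 → R) (x : S → R) (y : Σ i, RowsAt (m i)) :
    coeff y.2.1 (shift (q y.1) (poly x)) = (mat S m q).mulVec x y := by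
  rw [poly, map_sum, coeff_sum, Matrix.mulVec, dotProduct]
  refine Finset.sum_congr rfl fun δ _ => ?_
  have h : (monomial δ.1 (x δ) : MvPolynomial (Fin 2) R) = C (x δ) * monomial δ.1 1 := by
    rw [C_mul_monomial, mul_one]
  rw [h, map_mul, shift_C, coeff_C_mul, mat, mul_comm]

theorem ex_iff {R : Type*} [CommRing R] (S : Finset (Fin 2 →₀ ℕ)) (m : ι → ℕ)
    (q : ι → Fin 2 → R) : Ex S m q ↔ ∃ x : S → R, x ≠ 0 ∧ (mat S m q).mulVec x = 0 := by
  constructor
  · rintro ⟨P, hP0, hV, hm⟩
    have hP : P = poly (fun δ : S => coeff δ.1 P) := by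
      ext ε
      by_cases hε : ε ∈ S
      · exact (coeff_poly (fun δ : S => coeff δ.1 P) ⟨ε, hε⟩).symm
      · rw [coeff_poly_of_not _ hε]
        exact notMem_support_iff.1 fun h => hε (hV h)
    refine ⟨fun δ : S => coeff δ.1 P, fun h => hP0 ?_, ?_⟩
    · rw [hP, h]
      simp only [poly, Pi.zero_apply, monomial_zero, Finset.sum_const_zero]
    · funext y
      rw [← coeff_shift_poly, ← hP]
      exact hm y.1 y.2.1 y.2.2
  · rintro ⟨x, hx, h⟩
    refine ⟨poly x, fun h0 => hx ?_, fun ε hε => ?_, fun i α hα => ?_⟩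
    · funext δ
      rw [← coeff_poly x δ, h0, coeff_zero]
      rfl
    · by_contra h1
      exact mem_support_iff.1 hε (coeff_poly_of_not x h1)
    · have := coeff_shift_poly m q x ⟨i, ⟨α, hα⟩⟩
      rw [h] at this
      exact this

theorem ker_iff {R : Type*} [CommRing R] {I J : Type*} [Fintype J] (M : Matrix I J R) :
    (∃ x : J → R, x ≠ 0 ∧ M.mulVec x = 0) ↔ ¬ LinearIndependent R M.col := by
  rw [← Matrix.mulVec_injective_iff]
  constructor
  · rintro ⟨x, hx, h⟩ hinj
    exact hx (hinj (by rw [h, Matrix.mulVec_zero]))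
  · intro h
    by_contra hcon
    push Not at hcon
    apply h
    intro x y hxy
    by_contra hne
    exact hcon (x - y) (sub_ne_zero.2 hne) (by rw [Matrix.mulVec_sub, hxy, sub_self])

theorem ker_map_iff {R T : Type*} [CommRing R] [CommRing T] [IsDomain T] {I J : Type*} [Finite I]
    [Fintype J] (φ : R →+* T) (hφ : Function.Injective φ) (M : Matrix I J R) :
    (∃ x : J → T, x ≠ 0 ∧ (M.map φ).mulVec x = 0) ↔ ∃ x : J → R, x ≠ 0 ∧ M.mulVec x = 0 := by
  rw [ker_iff, ker_iff, not_iff_not]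
  letI := φ.toAlgebra
  haveI : FaithfulSMul R T := (faithfulSMul_iff_algebraMap_injective R T).2 hφ
  exact linearIndependent_algebraMap_comp_iff (R := R) (S := T) (v := M.col)

theorem ex_map_iff [Fintype ι] {R T : Type*} [CommRing R] [CommRing T] [IsDomain T] (φ : R →+* T)
    (hφ : Function.Injective φ) (S : Finset (Fin 2 →₀ ℕ)) (m : ι → ℕ) (q : ι → Fin 2 → R) :
    Ex S m (fun i k => φ (q i k)) ↔ Ex S m q := by
  rw [ex_iff, ex_iff, ← mat_map, ker_map_iff φ hφ]

/-- Specialisation over a field. -/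
theorem ex_spec [Fintype ι] {L : Type*} [Field L] {S : Finset (Fin 2 →₀ ℕ)} {m : ι → ℕ}
    (h : Ex S m (fun i k => (X (i, k) : MvPolynomial (ι × Fin 2) L))) (w : ι → Fin 2 → L) :
    Ex S m w := by
  classical
  rw [ex_iff] at h ⊢
  obtain ⟨y, hy, hMy⟩ := h
  by_contra hcon
  push Not at hcon
  obtain ⟨L0, hL0⟩ := exists_left_inverse (mat S m w) (by
    intro x hx
    by_contra h
    exact hcon x h hx)
  have h1 : (L0.map (C : L →+* MvPolynomial (ι × Fin 2) L) *
      mat S m (fun i k => (X (i, k) : MvPolynomial (ι × Fin 2) L))).det = 0 := by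
    rw [← Matrix.exists_mulVec_eq_zero_iff]
    exact ⟨y, hy, by rw [← Matrix.mulVec_mulVec, hMy, Matrix.mulVec_zero]⟩
  have h2 := congrArg (eval (fun p : ι × Fin 2 => w p.1 p.2)) h1
  rw [RingHom.map_det, RingHom.mapMatrix_apply, Matrix.map_mul, mat_map, map_zero] at h2
  have e1 : (L0.map (C : L →+* MvPolynomial (ι × Fin 2) L)).map
      (eval (fun p : ι × Fin 2 => w p.1 p.2)) = L0 := by
    ext i j
    simp only [Matrix.map_apply, eval_C]
  simp only [eval_X] at h2
  rw [e1, hL0, Matrix.det_one] at h2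
  exact one_ne_zero h2

/-- **Transfer** from algebraically independent points to arbitrary points. -/
theorem transfer [Fintype ι] {F K A : Type*} [Field F] [Field K] [Algebra F K] [CommRing A]
    [IsDomain A] (ψ : F →+* A) {v : ι → Fin 2 → K}
    (hv : AlgebraicIndependent F (fun p : ι × Fin 2 => v p.1 p.2)) {S : Finset (Fin 2 →₀ ℕ)}
    {m : ι → ℕ} (h : Ex S m v) (w : ι → Fin 2 → A) : Ex S m w := by
  have h1 : Ex S m (fun i k => (X (i, k) : MvPolynomial (ι × Fin 2) F)) := by
    rw [← ex_map_iff (aeval (fun p : ι × Fin 2 => v p.1 p.2) :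
      MvPolynomial (ι × Fin 2) F →ₐ[F] K).toRingHom hv]
    simpa using h
  set φ := algebraMap A (FractionRing A) with hφ
  have h2 : Ex S m (fun i k => (X (i, k) : MvPolynomial (ι × Fin 2) (FractionRing A))) := by
    have := (ex_map_iff (MvPolynomial.map (σ := ι × Fin 2) (φ.comp ψ))
      (map_injective _ (φ.comp ψ).injective) S m _).2 h1
    simpa using this
  exact (ex_map_iff φ (IsFractionRing.injective A _) S m w).1 (ex_spec h2 _)

end Vale.Agent.N279
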