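import Mathlib

/-!
# The tent lemma over any field, and the arithmetic of the windows
-/

set_option linter.all false

namespace Vale.Agent.N279

open Polynomial

section

variable {k : Type*} [Field k]

/-- A multiple of `D`, `D (0) ≠ 0`, with exponents in an interval of length at most `deg D`. -/
theorem eq_zero_of_window {p D : k[X]} (hD : D.coeff 0 ≠ 0) (hdvd : D ∣ p) {A : ℤ} {n : ℕ}
    (hn : n ≤ D.natDegree) (h : ∀ i : ℕ, p.coeff i ≠ 0 → A ≤ i ∧ (i : ℤ) < A + n) : p = 0 := by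
  by_contra hp
  obtain ⟨g, rfl⟩ := hdvd
  have hD0 : D ≠ 0 := left_ne_zero_of_mul hp
  have hg0 : g ≠ 0 := right_ne_zero_of_mul hp
  have h1 := (h _ (leadingCoeff_ne_zero.2 hp)).2
  have h2 := (h _ (trailingCoeff_nonzero_iff_nonzero.2 hp)).1
  rw [natDegree_mul hD0 hg0] at h1
  rw [natTrailingDegree_mul hD0 hg0, natTrailingDegree_eq_zero.2 (Or.inr hD)] at h2
  have h3 := natTrailingDegree_le_natDegree g
  push_cast at h1 h2
  omega

/-- **The tent lemma.** -/
theorem tent {Q : ℕ} (ν : ℕ → k[X]) (φ : ℕ → ℕ) (D : ℕ → k[X]) (hD0 : ∀ t, (D t).coeff 0 ≠ 0)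
    (hφ : ∀ t, φ t ≤ (D t).natDegree)
    (hdvd : ∀ t, D t ∣ ∑ q ∈ Finset.range (Q + 1), C (q.choose t : k) * ν q)
    (hw : ∀ t, ∃ A : ℤ, ∀ q₁ q₂ i : ℕ, q₁ + t ≤ q₂ → q₂ ≤ Q → (ν q₁).coeff i ≠ 0 →
      (ν q₂).coeff i ≠ 0 → A ≤ i ∧ (i : ℤ) < A + φ t) :
    ∀ q ≤ Q, ν q = 0 := by
  classical
  set g : ℕ → k[X] := fun i => ∑ q ∈ Finset.range (Q + 1), monomial q ((ν q).coeff i) with hg
  have hgc : ∀ i q, (g i).coeff q = if q ≤ Q then (ν q).coeff i else 0 := by
    intro i q
    simp only [hg, finset_sum_coeff, coeff_monomial]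
    rw [Finset.sum_ite_eq']
    simp [Nat.lt_succ_iff]
  have hcomp : ∀ i t, ((g i).comp (X + C 1)).coeff t =
      (∑ q ∈ Finset.range (Q + 1), C (q.choose t : k) * ν q).coeff i := by
    intro i t
    simp only [hg, sum_comp, finset_sum_coeff, monomial_comp, coeff_C_mul, coeff_X_add_C_pow]
    refine Finset.sum_congr rfl fun q _ => ?_
    rw [one_pow, one_mul, mul_comm]
  -- a nonzero row divisible by `(X - 1) ^ t` has a pair at distance `t`
  have hrow : ∀ t i, (X - C 1) ^ t ∣ g i → g i ≠ 0 →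
      ∃ q₁ q₂, q₁ + t ≤ q₂ ∧ q₂ ≤ Q ∧ (ν q₁).coeff i ≠ 0 ∧ (ν q₂).coeff i ≠ 0 := by
    intro t i hd hne
    have h1 : (g i).coeff (g i).natDegree ≠ 0 := leadingCoeff_ne_zero.2 hne
    have h2 : (g i).coeff (g i).natTrailingDegree ≠ 0 := trailingCoeff_nonzero_iff_nonzero.2 hne
    rw [hgc] at h1 h2
    have h3 : (g i).natDegree ≤ Q := by
      by_contra h
      exact h1 (if_neg h)
    have h4 := natTrailingDegree_le_natDegree (g i)
    rw [if_pos h3] at h1
    rw [if_pos (h4.trans h3)] at h2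
    refine ⟨_, _, ?_, h3, h2, h1⟩
    by_contra hlt
    apply hne
    refine eq_zero_of_window (D := (X - C 1) ^ t) (A := (g i).natTrailingDegree) (n := t) ?_ hd ?_ ?_
    · rw [coeff_zero_eq_eval_zero]
      simp
    · rw [natDegree_pow, natDegree_X_sub_C, mul_one]
    · intro j hj
      have h5 := natTrailingDegree_le_of_ne_zero hj
      have h6 := le_natDegree_of_ne_zero hj
      omega
  have key : ∀ t, ∀ i, (X - C 1) ^ t ∣ g i := by
    intro t
    induction t with
    | zero => intro i; simp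
    | succ t ih =>
      obtain ⟨A, hA⟩ := hw t
      have h0 : ∑ q ∈ Finset.range (Q + 1), C (q.choose t : k) * ν q = 0 := by
        refine eq_zero_of_window (hD0 t) (hdvd t) (A := A) (hφ t) fun i hi => ?_
        have hne : g i ≠ 0 := by
          intro h
          apply hi
          rw [← hcomp, h]
          simp
        obtain ⟨q₁, q₂, h1, h2, h3, h4⟩ := hrow t i (ih i) hne
        exact hA q₁ q₂ i h1 h2 h3 h4
      intro i
      have h1 := ih i
      rw [X_sub_C_pow_dvd_iff, X_pow_dvd_iff] at h1 ⊢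
      intro s hs
      rcases Nat.lt_succ_iff_lt_or_eq.1 hs with h | rfl
      · exact h1 s h
      · rw [hcomp, h0, coeff_zero]
  intro q hq
  ext i
  have h1 : g i = 0 := by
    by_contra hne
    obtain ⟨q₁, q₂, h1, h2, -, -⟩ := hrow (Q + 1) i (key _ i) hne
    omega
  have h2 := hgc i q
  rw [h1, if_pos hq] at h2
  simpa using h2.symm

/-- The maximal ideal of the point `(0, y)`. -/
noncomputable def ptI (y : k) : Ideal k[X][X] := Ideal.span {X, C (X - C y)}

theorem dvd_coeff_mul {y : k} {m : ℕ} {b : k[X][X]} (hb : ∀ t, (X - C y) ^ (m - t) ∣ b.coeff t)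
    (u : k[X][X]) (t : ℕ) : (X - C y) ^ (m - t) ∣ (u * b).coeff t := by
  rw [coeff_mul]
  refine Finset.dvd_sum fun a ha => ?_
  rw [Finset.HasAntidiagonal.mem_antidiagonal] at ha
  exact ((pow_dvd_pow _ (by omega)).trans (hb a.2)).mul_left _

theorem dvd_coeff_of_mem {y : k} {m : ℕ} {G : k[X][X]} (hG : G ∈ ptI y ^ m) (t : ℕ) :
    (X - C y) ^ (m - t) ∣ G.coeff t := by
  induction m generalizing G t with
  | zero => simp
  | succ m ih =>
    rw [Submodule.pow_succ] at hG
    revert t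
    refine Submodule.mul_induction_on hG ?_ ?_
    · intro b hb a ha t
      obtain ⟨u, v, rfl⟩ := Ideal.mem_span_pair.1 ha
      have e : b * (u * X + v * C (X - C y)) = X * (u * b) + C (X - C y) * (v * b) := by ring
      rw [e, coeff_add]
      refine dvd_add ?_ ?_
      · rcases t with _ | t
        · simp
        · rw [coeff_X_mul]
          have := dvd_coeff_mul (fun t => ih hb t) u t
          rwa [show m + 1 - (t + 1) = m - t by omega]
      · rw [coeff_C_mul]
        have := dvd_coeff_mul (fun t => ih hb t) v t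
        refine (pow_dvd_pow _ (by omega : m + 1 - t ≤ m - t + 1)).trans ?_
        rw [pow_succ']
        exact mul_dvd_mul_left _ this
    · intro a b ha hb t
      rw [coeff_add]
      exact dvd_add (ha t) (hb t)

end

/-! ### Arithmetic -/

theorem interval {Dv R : ℤ} (hD : 0 < Dv) (φ : ℕ) :
    ∃ A : ℤ, ∀ i : ℤ, R - Dv * φ < Dv * i → Dv * i ≤ R → A ≤ i ∧ i < A + φ := by
  refine ⟨R / Dv - φ + 1, fun i h1 h2 => ?_⟩
  have h3 : i ≤ R / Dv := Int.le_ediv_of_mul_le hD (by linarith)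
  have h4 : R / Dv < i + φ := Int.ediv_lt_of_lt_mul hD (by linarith)
  omega

/-- The window of the column `q`. -/
def Wd (s n D e : ℤ) (A B N : ℕ) (q : ℕ) (i : ℤ) : Prop :=
  -((D - s * q) * A) ≤ (A + B) * (i + N * q) ∧
    (A + B) * (i + N * q) ≤ -((D - s * q) * A) + (A + B) * (e - n * q)

theorem pair_bound {s n e u v W q t : ℤ} (hu : n * v < u) (hu0 : 0 < u)
    (h1 : s * (q + t) * u ≤ W) (h2 : W ≤ s * v * e + s * q * (u - n * v)) :
    n * v * (W - s * t * u) ≤ s * (u * (e * v - u * t)) := by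
  have h3 : u * W ≤ u * (s * v * e + s * q * (u - n * v)) := mul_le_mul_of_nonneg_left h2 hu0.le
  have h4 : (u - n * v) * (s * q * u) ≤ (u - n * v) * (W - s * t * u) :=
    mul_le_mul_of_nonneg_left (by linarith) (by linarith)
  nlinarith

theorem pair_bound' {s n e u v W q t : ℤ} (hu : n * v < u) (hu0 : 0 < u)
    (h1 : s * (q + t) * u ≤ W) (h2 : W < s * v * e + s * q * (u - n * v)) :
    n * v * (W - s * t * u) < s * (u * (e * v - u * t)) := by
  have h3 : u * W < u * (s * v * e + s * q * (u - n * v)) := mul_lt_mul_of_pos_left h2 hu0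
  have h4 : (u - n * v) * (s * q * u) ≤ (u - n * v) * (W - s * t * u) :=
    mul_le_mul_of_nonneg_left (by linarith) (by linarith)
  nlinarith

/-- the windows in reduced form -/
theorem red {s n D e u v c ε : ℤ} {A B N : ℕ} (hc : c = (N + n) * v - u) (hε : ε = 1 ∨ ε = -1)
    (hA : (A : ℤ) = c * (D + 1) + ε) (hAB : (A : ℤ) + B = s * v * (D + 1)) {q : ℕ} {i : ℤ}
    (hq0 : 0 ≤ s * q) (hq : s * q ≤ D) (h : Wd s n D e A B N q i) :
    s * q * u ≤ s * v * e - s * v * i - D * c ∧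
      s * v * e - s * v * i - D * c ≤ s * v * e + s * q * (u - n * v) ∧
      (ε = 1 → s * q < D → s * q * u < s * v * e - s * v * i - D * c) ∧
      (ε = -1 → s * q < D → s * v * e - s * v * i - D * c < s * v * e + s * q * (u - n * v)) := by
  obtain ⟨h1, h2⟩ := h
  rw [hAB, hA] at h1 h2
  obtain ⟨Z, hZ⟩ : ∃ Z, Z = s * v * i + D * c + s * q * (u - n * v) := ⟨_, rfl⟩
  obtain ⟨Y, hY⟩ : ∃ Y, Y = s * v * (e - n * q) - Z := ⟨_, rfl⟩
  have e1 : -(ε * (D - s * q)) ≤ (D + 1) * Z := by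
    have : (D + 1) * Z = s * v * (D + 1) * (i + N * q) + (D - s * q) * (c * (D + 1)) := by
      rw [hZ, hc]; ring
    rw [this]; linarith
  have e2 : ε * (D - s * q) ≤ (D + 1) * Y := by
    have : (D + 1) * Y = s * v * (D + 1) * (e - n * q) - s * v * (D + 1) * (i + N * q)
        - (D - s * q) * (c * (D + 1)) := by
      rw [hY, hZ, hc]; ring
    rw [this]; linarith
  have f1 : s * v * e - s * v * i - D * c = s * v * e + s * q * (u - n * v) - Z := by
    rw [hZ]; ring
  have f2 : s * v * e - s * v * i - D * c = s * q * u + Y := by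
    rw [hY, hZ]; ring
  have hT0 : 0 < D + 1 := by omega
  have aux : ∀ X w : ℤ, -D ≤ w → w ≤ (D + 1) * X → 0 ≤ X := by
    intro X w hw hX
    by_contra hneg
    have : (D + 1) * X ≤ (D + 1) * (-1) := mul_le_mul_of_nonneg_left (by omega) hT0.le
    omega
  have aux' : ∀ X w : ℤ, 0 < w → w ≤ (D + 1) * X → 0 < X := by
    intro X w hw hX
    by_contra hneg
    have : (D + 1) * X ≤ (D + 1) * 0 := mul_le_mul_of_nonneg_left (by omega) hT0.le
    omega
  have g1 : 0 ≤ Z := aux Z _ (by rcases hε with h | h <;> rw [h] <;> omega) e1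
  have g2 : 0 ≤ Y := aux Y _ (by rcases hε with h | h <;> rw [h] <;> omega) e2
  refine ⟨by omega, by omega, fun h hlt => ?_, fun h hlt => ?_⟩
  · have := aux' Y _ (by rw [h]; omega) e2
    omega
  · have := aux' Z _ (by rw [h]; omega) e1
    omega

theorem est {s n e u v W q₁ q₂ t φ : ℤ} (hs : 0 < s) (hn : 0 < n) (hv : 0 < v) (hu : n * v < u)
    (hq₁ : 0 ≤ q₁) (H : u * t ≤ e * v → u * (e * v - u * t) ≤ n * v ^ 2 * φ) (h12 : q₁ + t ≤ q₂)
    (h1 : s * q₂ * u ≤ W) (h2 : W ≤ s * v * e + s * q₁ * (u - n * v)) :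
    s * (q₁ + t) * u ≤ W ∧ s * t * u ≤ W ∧ s * (u * (e * v - u * t)) ≤ n * v * (s * v * φ) := by
  have hnv : 0 < n * v := by positivity
  have hu0 : 0 < u := by omega
  have h4 : s * (q₁ + t) * u ≤ W := le_trans (by gcongr) h1
  have h5 : s * t * u ≤ W := le_trans (by gcongr; omega) h4
  have h6 := pair_bound hu hu0 h4 h2
  have h7 : 0 ≤ s * (u * (e * v - u * t)) := le_trans (mul_nonneg hnv.le (by linarith)) h6
  have h8 : 0 ≤ e * v - u * t := by
    by_contra h
    have : u * (e * v - u * t) < 0 := mul_neg_of_pos_of_neg hu0 (by linarith)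
    have : s * (u * (e * v - u * t)) < 0 := mul_neg_of_pos_of_neg hs this
    linarith
  have h9 := H (by linarith)
  refine ⟨h4, h5, ?_⟩
  have : s * (u * (e * v - u * t)) ≤ s * (n * v ^ 2 * φ) := by gcongr
  linarith [show s * (n * v ^ 2 * φ) = n * v * (s * v * φ) by ring]

theorem case1 {s n D e u v W q₁ q₂ t : ℤ} (hs : 0 < s) (hD : 0 < D) (hnv : 0 < n * v)
    (hu : n * v < u) (hq₁ : 0 ≤ q₁) (ht : 0 ≤ t) (h12 : q₁ + t ≤ q₂) (hq₂ : s * q₂ ≤ D)
    (hcase : n * D = s * e) (a2 : W ≤ s * v * e + s * q₁ * (u - n * v)) (b1 : s * q₂ * u ≤ W)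
    (b3 : s * q₂ < D → s * q₂ * u < W) : s * t * u < W := by
  have hu0 : 0 < u := by omega
  rcases lt_or_eq_of_le hq₂ with h | h
  · refine lt_of_le_of_lt ?_ (b3 h)
    gcongr
    omega
  · rcases eq_or_lt_of_le ht with rfl | ht
    · have : 0 < s * q₂ * u := by rw [h]; positivity
      simp only [mul_zero, zero_mul]
      linarith
    · exfalso
      have d1 : s * q₁ < D := by
        rw [← h]
        gcongr
        omega
      have d2 : s * q₁ * (u - n * v) < D * (u - n * v) :=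
        mul_lt_mul_of_pos_right d1 (by omega)
      have d3 : s * v * e = n * v * D := by linear_combination -v * hcase
      rw [h] at b1
      linarith

theorem case2 {s n D e u v W : ℤ} (hn : 0 < n) (hv : 0 < v) (hu : n * v < u)
    (hcase : n * D ≠ s * e) (a1 : D * u ≤ W) (a2 : W ≤ s * v * e + D * (u - n * v)) :
    n * v * W < s * (u * (e * v)) := by
  have d1 : v * (n * D) ≤ v * (s * e) := by linarith
  have d2 : n * D < s * e := lt_of_le_of_ne (le_of_mul_le_mul_left d1 hv) hcase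
  have d3 : n * D * (u - n * v) < s * e * (u - n * v) := mul_lt_mul_of_pos_right d2 (by omega)
  have d4 : n * W ≤ n * (s * v * e + D * (u - n * v)) := mul_le_mul_of_nonneg_left a2 hn.le
  have d5 : n * W < s * e * u := by linarith
  have d6 := mul_lt_mul_of_pos_left d5 hv
  linarith

theorem arith {s n D e u v : ℤ} (φ : ℕ → ℕ) (hs : 2 ≤ s) (hn : 1 ≤ n) (hD : 1 ≤ D) (hv : 1 ≤ v)
    (hu : n * v < u) (H : ∀ t : ℕ, u * t ≤ e * v → u * (e * v - u * t) ≤ n * v ^ 2 * φ t) :
    ∃ A B N : ℕ, 0 < A ∧ 0 < B ∧ ∀ t : ℕ, ∃ A' : ℤ, ∀ (q₁ q₂ : ℕ) (i : ℤ), q₁ + t ≤ q₂ →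
      s * q₂ ≤ D → Wd s n D e A B N q₁ i → Wd s n D e A B N q₂ i → A' ≤ i ∧ i < A' + φ t := by
  have hv0 : 0 < v := by omega
  have hs0 : 0 < s := by omega
  have hn0 : 0 < n := by omega
  have hsv : 0 < s * v := by positivity
  have hnv : 0 < n * v := by positivity
  have hu0 : 0 < u := by omega
  have hN0 : 0 ≤ u / v + 1 - n := by
    have : n ≤ u / v := Int.le_ediv_of_mul_le hv0 hu.le
    omega
  obtain ⟨N, hN⟩ := Int.eq_ofNat_of_zero_le hN0
  obtain ⟨c, hc⟩ : ∃ c : ℤ, c = (N + n) * v - u := ⟨_, rfl⟩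
  have hc1 : 1 ≤ c := by
    have h1 : u < (u / v + 1) * v := Int.lt_ediv_add_one_mul_self u hv0
    have h2 : (N : ℤ) + n = u / v + 1 := by omega
    rw [hc, h2]; omega
  have hc2 : c ≤ v := by
    have h1 : u / v * v ≤ u := Int.ediv_mul_le u hv0.ne'
    have h2 : (N : ℤ) + n = u / v + 1 := by omega
    rw [hc, h2]; linarith
  obtain ⟨ε, hε1, hε2⟩ : ∃ ε : ℤ, (n * D = s * e → ε = 1) ∧ (n * D ≠ s * e → ε = -1) := by
    by_cases h : n * D = s * e
    · exact ⟨1, fun _ => rfl, fun h' => absurd h h'⟩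
    · exact ⟨-1, fun h' => absurd h' h, fun _ => rfl⟩
  have hε : ε = 1 ∨ ε = -1 := by
    by_cases h : n * D = s * e
    · exact Or.inl (hε1 h)
    · exact Or.inr (hε2 h)
  have hA0 : 0 < c * (D + 1) + ε := by
    have : 1 * (D + 1) ≤ c * (D + 1) := mul_le_mul_of_nonneg_right hc1 (by omega)
    omega
  have hB0 : 0 < s * v * (D + 1) - (c * (D + 1) + ε) := by
    have h1 : c * (D + 1) ≤ v * (D + 1) := mul_le_mul_of_nonneg_right hc2 (by omega)
    have h2 : 2 * (v * (D + 1)) ≤ s * (v * (D + 1)) :=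
      mul_le_mul_of_nonneg_right hs (by positivity)
    have h3 : 1 * (D + 1) ≤ v * (D + 1) := mul_le_mul_of_nonneg_right hv (by omega)
    rw [mul_assoc]
    omega
  obtain ⟨A, hA⟩ := Int.eq_ofNat_of_zero_le hA0.le
  obtain ⟨B, hB⟩ := Int.eq_ofNat_of_zero_le hB0.le
  have hAB : (A : ℤ) + B = s * v * (D + 1) := by omega
  refine ⟨A, B, N, by omega, by omega, fun t => ?_⟩
  have ht0 : (0 : ℤ) ≤ t := Int.natCast_nonneg t
  by_cases hcase : n * D = s * e
  · obtain ⟨A', hA'⟩ := interval (R := s * v * e - D * c - s * t * u - 1) hsv (φ t)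
    refine ⟨A', fun q₁ q₂ i h12 hq2 w1 w2 => ?_⟩
    have h3 : (q₁ : ℤ) + t ≤ q₂ := by exact_mod_cast h12
    have hq1 : s * q₁ ≤ D := le_trans (by gcongr; omega) hq2
    obtain ⟨a1, a2, -, -⟩ := red hc hε hA.symm hAB (by positivity) hq1 w1
    obtain ⟨b1, b2, b3, -⟩ := red hc hε hA.symm hAB (by positivity) hq2 w2
    obtain ⟨c1, c2, c3⟩ := est hs0 hn0 hv0 hu (Int.natCast_nonneg q₁) (H t) h3 b1 a2
    have h6 := (pair_bound hu hu0 c1 a2).trans c3
    have h7 := le_of_mul_le_mul_left h6 hnv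
    have h8 := case1 hs0 (by omega) hnv hu (Int.natCast_nonneg q₁) ht0 h3 hq2 hcase a2 b1
      (b3 (hε1 hcase))
    exact hA' i (by linarith) (by linarith)
  · obtain ⟨A', hA'⟩ := interval (R := s * v * e - D * c - s * t * u) hsv (φ t)
    refine ⟨A', fun q₁ q₂ i h12 hq2 w1 w2 => ?_⟩
    have h3 : (q₁ : ℤ) + t ≤ q₂ := by exact_mod_cast h12
    have hq1 : s * q₁ ≤ D := le_trans (by gcongr; omega) hq2
    obtain ⟨a1, a2, -, a4⟩ := red hc hε hA.symm hAB (by positivity) hq1 w1
    obtain ⟨b1, b2, -, -⟩ := red hc hε hA.symm hAB (by positivity) hq2 w2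
    obtain ⟨c1, c2, c3⟩ := est hs0 hn0 hv0 hu (Int.natCast_nonneg q₁) (H t) h3 b1 a2
    refine hA' i ?_ (by linarith)
    suffices n * v * (s * v * e - s * v * i - D * c - s * t * u) < n * v * (s * v * φ t) by
      have := lt_of_mul_lt_mul_left this hnv.le
      linarith
    refine lt_of_lt_of_le ?_ c3
    rcases lt_or_eq_of_le hq1 with h | h
    · exact pair_bound' hu hu0 c1 (a4 (hε2 hcase) h)
    · have ht : t = 0 := by
        by_contra ht
        have ht' : (1 : ℤ) ≤ t := by exact_mod_cast Nat.one_le_iff_ne_zero.2 ht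
        have : s * q₁ < s * q₂ := mul_lt_mul_of_pos_left (by omega) hs0
        linarith
      subst ht
      rw [h] at a1 a2
      simp only [Nat.cast_zero, mul_zero, zero_mul, sub_zero]
      exact case2 hn0 hv0 hu hcase a1 a2

/-- The choice of the slope. -/
theorem exists_slope {n g e S : ℤ} (φ : ℕ → ℕ) (hn : 1 ≤ n) (hg : n < g) (hS : 0 ≤ S)
    (he : e ≤ 0 ∨ g * e ^ 2 ≤ n * S ^ 2) (hφ : ∀ t : ℕ, S - g * t ≤ φ t) :
    ∃ u v : ℤ, 1 ≤ v ∧ n * v < u ∧
      ∀ t : ℕ, u * t ≤ e * v → u * (e * v - u * t) ≤ n * v ^ 2 * φ t := by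
  rcases le_or_gt e 0 with h0 | h0
  · refine ⟨n + 1, 1, le_rfl, by omega, fun t _ => ?_⟩
    have h1 : (n + 1) * (e * 1 - (n + 1) * t) ≤ 0 :=
      mul_nonpos_of_nonneg_of_nonpos (by omega) (by nlinarith [(Int.natCast_nonneg t)])
    exact h1.trans (by positivity)
  have he' : g * e ^ 2 ≤ n * S ^ 2 := he.resolve_left (by omega)
  rcases lt_or_ge (n * S) (e * g) with h | h
  · have hS1 : 1 ≤ S := by
      by_contra h1
      have : S = 0 := by omega
      rw [this] at he'
      have : 0 < g * e ^ 2 := by have : 0 < g := by omega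
                                 positivity
      linarith
    refine ⟨e * g, S, hS1, h, fun t ht => ?_⟩
    have h1 : 0 ≤ S - g * t := by
      have : e * (g * t) ≤ e * S := by linarith
      have := le_of_mul_le_mul_left this h0
      linarith
    calc e * g * (e * S - e * g * t) = g * e ^ 2 * (S - g * t) := by ring
      _ ≤ n * S ^ 2 * (S - g * t) := by gcongr
      _ ≤ n * S ^ 2 * φ t := by gcongr; exact hφ t
  · refine ⟨n * e + 1, e, h0, by omega, fun t ht => ?_⟩
    have ht0 : (0 : ℤ) ≤ t := Int.natCast_nonneg t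
    have h1 : n * e + 1 ≤ n * S := by nlinarith
    have h2 : e * ((n * e + 1) * (e * e - (n * e + 1) * t)) ≤ e * (n * e ^ 2 * φ t) := by
      calc e * ((n * e + 1) * (e * e - (n * e + 1) * t))
          ≤ e * (n * S * (e * e - (n * e + 1) * t)) := by gcongr
        _ ≤ e * (n * S * (e * e - n * e * t)) := by
          gcongr
          omega
        _ = n * e ^ 2 * (e * S - n * S * t) := by ring
        _ ≤ n * e ^ 2 * (e * S - e * g * t) := by gcongr
        _ = e * (n * e ^ 2 * (S - g * t)) := by ring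
        _ ≤ e * (n * e ^ 2 * φ t) := by gcongr; exact hφ t
    exact le_of_mul_le_mul_left h2 h0

end Vale.Agent.N279
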