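import Vale.Agent.N279.Loc
import Vale.Agent.N279.Tent
import Vale.Agent.N279.Eff

/-!
# From the leading term statement to the emptiness of linear systems
-/

set_option linter.all false

namespace Vale.Agent.N279

open Vale.Agent.P279 Vale.Agent.P279.H35

universe u

variable {k : Type u} [Field k]

/-- The leading term statement for the polynomials with exponents in `S`: the window of the
column `q` has length `D - s q`. -/
def LA (k : Type u) [Field k] (S : Finset (Fin 2 →₀ ℕ)) (s D Q A B : ℕ) : Prop :=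
  ∃ (c : ℕ) (xy : Fin 2 → MvPolynomial (Fin 2) k),
    ∀ P : MvPolynomial (Fin 2) (PowerSeries k), P ≠ 0 → P.support ⊆ S →
    ∃ (e : ℕ) (lam : ℕ → LaurentPolynomial k), (∃ q ≤ Q, lam q ≠ 0) ∧
      (∀ q ≤ Q, ∀ p : ℤ, (lam q).coeff p ≠ 0 →
        ((A : ℤ) + B) * p ≤ ((D : ℤ) - s * q) * B ∧ -(((A : ℤ) + B) * p) ≤ ((D : ℤ) - s * q) * A) ∧
      ∀ (𝔅 : Type u) [CommRing 𝔅] [Algebra k 𝔅] (x : 𝔅ˣ) (z : 𝔅),
        PowerSeries.coeff e (MvPolynomial.eval₂ (PowerSeries.map (algebraMap k 𝔅))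
          (fun j => ev1 A B c x z (xy j)) P) =
          ∑ q ∈ Finset.range (Q + 1), LaurentPolynomial.eval₂ (algebraMap k 𝔅) x (lam q) * z ^ q

section Vanishing

open MvPolynomial

theorem map_ev1 {𝔅 𝔅' : Type u} [CommRing 𝔅] [Algebra k 𝔅] [CommRing 𝔅'] [Algebra k 𝔅']
    (ψ : 𝔅 →ₐ[k] 𝔅') (A B c : ℕ) (x : 𝔅ˣ) (z : 𝔅) (h : MvPolynomial (Fin 2) k) :
    PowerSeries.map (ψ : 𝔅 →+* 𝔅') (ev1 A B c x z h) =
      ev1 A B c (Units.map (ψ : 𝔅 →* 𝔅') x) (ψ z) h := by
  induction h using MvPolynomial.induction_on with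
  | C a =>
    simp only [ev1, aeval_C, PowerSeries.algebraMap_apply, PowerSeries.map_C]
    congr 1
    exact ψ.commutes a
  | add p q hp hq => rw [map_add, map_add, map_add, hp, hq]
  | mul_X p i hp =>
    rw [map_mul, map_mul, map_mul, hp]
    congr 1
    fin_cases i
    · simp [ev1, xi]
    · simp [ev1, eta, eta0]

theorem coeff_mem_pow {𝔅 : Type u} [CommRing 𝔅] (I : Ideal 𝔅) (m : ℕ) {f : PowerSeries 𝔅}
    (hf : f ∈ RingHom.ker (PowerSeries.map (Ideal.Quotient.mk I)) ^ m) (n : ℕ) :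
    PowerSeries.coeff n f ∈ I ^ m := by
  induction m generalizing f n with
  | zero => simp
  | succ m ih =>
    rw [pow_succ] at hf ⊢
    revert n
    refine Submodule.mul_induction_on hf ?_ ?_
    · intro a ha b hb n
      rw [PowerSeries.coeff_mul]
      refine Ideal.sum_mem _ fun p _ => Ideal.mul_mem_mul (ih ha _) ?_
      have := congrArg (PowerSeries.coeff p.2) ((RingHom.mem_ker).1 hb)
      rw [PowerSeries.coeff_map, map_zero] at this
      exact Ideal.Quotient.eq_zero_iff_mem.1 this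
    · intro a b ha hb n
      rw [map_add]
      exact add_mem (ha n) (hb n)

theorem eval₂_shift {K F : Type*} [CommRing K] [CommRing F] (g : K →+* F) (v : Fin 2 → F)
    (q : Fin 2 → K) (P : MvPolynomial (Fin 2) K) :
    eval₂ g v (shift q P) = eval₂ g (fun j => v j + g (q j)) P := by
  have h : (eval₂Hom g v).comp (shift q : MvPolynomial (Fin 2) K →ₐ[K]
      MvPolynomial (Fin 2) K).toRingHom = eval₂Hom g (fun j => v j + g (q j)) := by
    apply MvPolynomial.ringHom_ext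
    · intro r
      simp [shift]
    · intro i
      simp [shift]
  exact congrArg (fun f : MvPolynomial (Fin 2) K →+* F => f P) h

/-- **The vanishing lemma.** -/
theorem vanish {𝔅 : Type u} [CommRing 𝔅] [Algebra k 𝔅] (I : Ideal 𝔅) {A B c : ℕ}
    (xy : Fin 2 → MvPolynomial (Fin 2) k) (x : 𝔅ˣ) (z : 𝔅) (x₀ : kˣ) (z₀ : k)
    (hx : Ideal.Quotient.mk I x = algebraMap k _ x₀) (hz : Ideal.Quotient.mk I z = algebraMap k _ z₀)
    {m : ℕ} {P : MvPolynomial (Fin 2) (PowerSeries k)}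
    (hP : MultGE (fun j => ev1 A B c x₀ z₀ (xy j)) m P) (e : ℕ) :
    PowerSeries.coeff e (eval₂ (PowerSeries.map (algebraMap k 𝔅))
      (fun j => ev1 A B c x z (xy j)) P) ∈ I ^ m := by
  apply coeff_mem_pow
  set π : Fin 2 → PowerSeries k := fun j => ev1 A B c x₀ z₀ (xy j) with hπ
  set g := PowerSeries.map (algebraMap k 𝔅) with hg
  set v : Fin 2 → PowerSeries 𝔅 := fun j => ev1 A B c x z (xy j) - g (π j) with hv
  have h1 : eval₂ g (fun j => ev1 A B c x z (xy j)) P = eval₂Hom g v (shift π P) := by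
    rw [coe_eval₂Hom, eval₂_shift]
    simp [hv]
  have h2 : Ideal.map (eval₂Hom g v) (idealOfVars (Fin 2) (PowerSeries k)) ≤
      RingHom.ker (PowerSeries.map (Ideal.Quotient.mk I)) := by
    rw [idealOfVars, Ideal.map_span, Ideal.span_le]
    rintro _ ⟨_, ⟨j, rfl⟩, rfl⟩
    rw [SetLike.mem_coe, RingHom.mem_ker, coe_eval₂Hom, eval₂_X, hv, map_sub, sub_eq_zero]
    have e1 := map_ev1 (Ideal.Quotient.mkₐ k I) A B c x z (xy j)
    have e2 := map_ev1 (Algebra.ofId k (𝔅 ⧸ I)) A B c x₀ z₀ (xy j)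
    have e3 : Units.map (Ideal.Quotient.mkₐ k I : 𝔅 →* 𝔅 ⧸ I) x =
        Units.map (Algebra.ofId k (𝔅 ⧸ I) : k →* 𝔅 ⧸ I) x₀ := Units.ext hx
    have e4 : Ideal.Quotient.mkₐ k I z = Algebra.ofId k (𝔅 ⧸ I) z₀ := hz
    rw [e3, e4, ← e2] at e1
    refine e1.trans ?_
    ext n
    simp only [hg, hπ, PowerSeries.coeff_map]
    rfl
  rw [h1]
  have h3 := Ideal.mem_map_of_mem (eval₂Hom g v) (multGE_iff.1 hP)
  rw [Ideal.map_pow] at h3
  exact Ideal.pow_right_mono h2 m h3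

end Vanishing

open Polynomial

theorem exists_poly (Q : ℕ) (lam : ℕ → LaurentPolynomial k) :
    ∃ (H : ℕ) (l : ℕ → k[X]), ∀ q ≤ Q, toLaurent (l q) = lam q * LaurentPolynomial.T H := by
  choose n f hf using fun q => LaurentPolynomial.exists_T_pow (lam q)
  refine ⟨(Finset.range (Q + 1)).sup n, fun q => f q * X ^ ((Finset.range (Q + 1)).sup n - n q),
    fun q hq => ?_⟩
  have h1 : n q ≤ (Finset.range (Q + 1)).sup n :=
    Finset.le_sup (Finset.mem_range.2 (by omega))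
  rw [map_mul, hf, toLaurent_X_pow, mul_assoc, ← LaurentPolynomial.T_add]
  congr 2
  push_cast [h1]
  ring

theorem coeff_of_toLaurent {l : k[X]} {lam : LaurentPolynomial k} {H : ℕ}
    (h : toLaurent l = lam * LaurentPolynomial.T H) (j : ℕ) :
    l.coeff j = lam.coeff ((j : ℤ) - H) := by
  have h1 := congrArg (fun f : LaurentPolynomial k => f.coeff (j : ℤ)) h
  simp only [LaurentPolynomial.T, AddMonoidAlgebra.coeff_mul_single_apply, mul_one,
    LaurentPolynomial.coeff_toLaurent] at h1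
  rw [sub_eq_add_neg, ← h1]
  exact (Finsupp.mapDomain_apply Nat.castEmbedding.injective _ j).symm

theorem eval_of_toLaurent {l : k[X]} {lam : LaurentPolynomial k} {H : ℕ}
    (h : toLaurent l = lam * LaurentPolynomial.T H) {𝔅 : Type u} [CommRing 𝔅] [Algebra k 𝔅]
    (x : 𝔅ˣ) : aeval (x : 𝔅) l = LaurentPolynomial.eval₂ (algebraMap k 𝔅) x lam * x ^ H := by
  rw [aeval_def, ← LaurentPolynomial.eval₂_toLaurent, h, map_mul, LaurentPolynomial.eval₂_T_n]

/-- The conditions at one point: `z = Z x ^ (-N)`. -/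
theorem point_cond {R : Type u} [CommRing R] [Algebra k R] (𝔪 : Ideal R) {A B c Q N m : ℕ}
    (xy : Fin 2 → MvPolynomial (Fin 2) k) {y : k} (hy : y ≠ 0) (Y Z : R) (z₀ : k)
    (hY : Y - algebraMap k R y ∈ 𝔪) (hZ : Z - algebraMap k R z₀ ∈ 𝔪)
    {P : MvPolynomial (Fin 2) (PowerSeries k)}
    (hP : MultGE (fun j => ev1 A B c (Units.mk0 y hy) (z₀ * y⁻¹ ^ N) (xy j)) m P)
    {e H : ℕ} {lam : ℕ → LaurentPolynomial k} {l : ℕ → k[X]}
    (hl : ∀ q ≤ Q, toLaurent (l q) = lam q * LaurentPolynomial.T H)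
    (he : ∀ (𝔅 : Type u) [CommRing 𝔅] [Algebra k 𝔅] (x : 𝔅ˣ) (z : 𝔅),
        PowerSeries.coeff e (MvPolynomial.eval₂ (PowerSeries.map (algebraMap k 𝔅))
          (fun j => ev1 A B c x z (xy j)) P) =
          ∑ q ∈ Finset.range (Q + 1), LaurentPolynomial.eval₂ (algebraMap k 𝔅) x (lam q) * z ^ q) :
    ∑ q ∈ Finset.range (Q + 1), aeval Y (l q * X ^ (N * (Q - q))) * Z ^ q ∈ 𝔪 ^ m := by
  set J : Ideal R := 𝔪 ^ m with hJ
  set mk := Ideal.Quotient.mk J with hmk
  set I : Ideal (R ⧸ J) := 𝔪.map mk with hI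
  have hIm : I ^ m = ⊥ := (Ideal.map_pow mk 𝔪 m).symm.trans (Ideal.map_quotient_self J)
  have hal : ∀ a : k, algebraMap k (R ⧸ J) a = mk (algebraMap k R a) := fun a => rfl
  have h1 : mk Y - algebraMap k _ y ∈ I := by
    rw [hal, ← map_sub]
    exact Ideal.mem_map_of_mem _ hY
  have hu : IsUnit (mk Y) := by
    have h2 : IsNilpotent (mk Y - algebraMap k _ y) :=
      ⟨m, by
        have := Ideal.pow_mem_pow h1 m
        rwa [hIm, Ideal.mem_bot] at this⟩
    have h3 := h2.isUnit_add_right_of_commute ((IsUnit.mk0 y hy).map (algebraMap k (R ⧸ J)))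
      (Commute.all _ _)
    rwa [sub_add_cancel] at h3
  obtain ⟨x, hx⟩ := hu
  have hx1 : Ideal.Quotient.mk I x = algebraMap k _ ((Units.mk0 y hy : kˣ) : k) := by
    rw [hx, Units.val_mk0]
    exact (Ideal.Quotient.mk_eq_mk_iff_sub_mem _ _).2 h1
  have hx2 : Ideal.Quotient.mk I ((x⁻¹ : (R ⧸ J)ˣ) : R ⧸ J) = algebraMap k _ y⁻¹ := by
    have h4 : Ideal.Quotient.mk I ((x⁻¹ : (R ⧸ J)ˣ) : R ⧸ J) * Ideal.Quotient.mk I x = 1 := by
      rw [← map_mul, Units.inv_mul, map_one]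
    rw [hx1, Units.val_mk0] at h4
    calc _ = Ideal.Quotient.mk I ((x⁻¹ : (R ⧸ J)ˣ) : R ⧸ J) *
          (algebraMap k _ y * algebraMap k _ y⁻¹) := by
          rw [← map_mul, mul_inv_cancel₀ hy, map_one, mul_one]
      _ = _ := by rw [← mul_assoc, h4, one_mul]
  have hz : Ideal.Quotient.mk I (mk Z * ((x⁻¹ : (R ⧸ J)ˣ) : R ⧸ J) ^ N) =
      algebraMap k _ (z₀ * y⁻¹ ^ N) := by
    rw [map_mul, map_pow, hx2, map_mul, map_pow]
    congr 1
    refine (Ideal.Quotient.mk_eq_mk_iff_sub_mem _ _).2 ?_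
    change mk Z - mk (algebraMap k R z₀) ∈ I
    rw [← map_sub]
    exact Ideal.mem_map_of_mem _ hZ
  have hv := vanish I xy x _ (Units.mk0 y hy) _ hx1 hz hP e
  rw [hIm, Ideal.mem_bot, he] at hv
  rw [← Ideal.Quotient.eq_zero_iff_mem, map_sum]
  have h5 := congrArg (fun w => (x : R ⧸ J) ^ (H + N * Q) * w) hv
  simp only [mul_zero, Finset.mul_sum] at h5
  rw [← h5]
  refine Finset.sum_congr rfl fun q hq => ?_
  rw [Finset.mem_range] at hq
  have h6 : ∀ f : k[X], mk (aeval Y f) = aeval (x : R ⧸ J) f := by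
    intro f
    rw [hx]
    exact (aeval_algHom_apply (Ideal.Quotient.mkₐ k J) Y f).symm
  rw [map_mul, map_pow, ← hmk, h6, map_mul, map_pow, aeval_X, eval_of_toLaurent (hl q (by omega))]
  have h7 : (x : R ⧸ J) ^ (N * q) * ((x⁻¹ : (R ⧸ J)ˣ) : R ⧸ J) ^ (N * q) = 1 := by
    rw [← mul_pow, Units.mul_inv, one_pow]
  have h8 : H + N * Q = H + N * (Q - q) + N * q := by
    rw [add_assoc, ← mul_add]
    congr 2
    omega
  rw [h8, pow_add, pow_add, mul_pow, ← pow_mul]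
  linear_combination (-(LaurentPolynomial.eval₂ (algebraMap k (R ⧸ J)) x (lam q) *
    (x : R ⧸ J) ^ H * (x : R ⧸ J) ^ (N * (Q - q)) * mk Z ^ q)) * h7

theorem aeval_CX (f : k[X]) : aeval (C X : k[X][X]) f = C f := by
  induction f using Polynomial.induction_on' with
  | add p q hp hq => rw [C_add, map_add, hp, hq]
  | monomial n a =>
    rw [aeval_monomial, Polynomial.algebraMap_apply, ← C_pow, ← C_mul, ← C_mul_X_pow_eq_monomial]
    rfl

/-- The divisibility conditions at one point. -/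
theorem point_dvd {A B c Q N m : ℕ} (xy : Fin 2 → MvPolynomial (Fin 2) k) {y : k} (hy : y ≠ 0)
    (Z₀ Z₁ : k[X]) {P : MvPolynomial (Fin 2) (PowerSeries k)}
    (hP : MultGE (fun j => ev1 A B c (Units.mk0 y hy) (Z₀.eval y * y⁻¹ ^ N) (xy j)) m P)
    {e H : ℕ} {lam : ℕ → LaurentPolynomial k} {l : ℕ → k[X]}
    (hl : ∀ q ≤ Q, toLaurent (l q) = lam q * LaurentPolynomial.T H)
    (he : ∀ (𝔅 : Type u) [CommRing 𝔅] [Algebra k 𝔅] (x : 𝔅ˣ) (z : 𝔅),
        PowerSeries.coeff e (MvPolynomial.eval₂ (PowerSeries.map (algebraMap k 𝔅))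
          (fun j => ev1 A B c x z (xy j)) P) =
          ∑ q ∈ Finset.range (Q + 1), LaurentPolynomial.eval₂ (algebraMap k 𝔅) x (lam q) * z ^ q)
    (t : ℕ) : (X - C y) ^ (m - t) ∣ (∑ q ∈ Finset.range (Q + 1),
      C (l q * X ^ (N * (Q - q))) * (C Z₀ + C Z₁ * X) ^ q : k[X][X]).coeff t := by
  apply dvd_coeff_of_mem
  have hal : ∀ a : k, algebraMap k k[X][X] a = C (C a) := fun a => rfl
  have h := point_cond (R := k[X][X]) (ptI y) xy hy (C X) (C Z₀ + C Z₁ * X) (Z₀.eval y)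
    (by
      rw [hal, ← C_sub]
      exact Ideal.subset_span (by simp))
    (by
      obtain ⟨w, hw⟩ := X_sub_C_dvd_sub_C_eval (p := Z₀) (a := y)
      refine Ideal.mem_span_pair.2 ⟨C Z₁, C w, ?_⟩
      rw [hal, ← C_mul, mul_comm w, ← hw, C_sub]
      ring) hP hl he
  simpa only [aeval_CX] using h

theorem window_mu {l μ D E : k[X]} (hD : D.Monic) (hE : E.Monic) (hD0 : D.coeff 0 ≠ 0)
    (hE0 : E.coeff 0 ≠ 0) (h : l * D = E * μ) {j : ℕ} (hj : μ.coeff j ≠ 0) :
    l ≠ 0 ∧ l.natTrailingDegree ≤ j ∧ j + E.natDegree ≤ l.natDegree + D.natDegree := by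
  have hμ : μ ≠ 0 := fun h0 => hj (by rw [h0, coeff_zero])
  have hl : l ≠ 0 := by
    intro h0
    rw [h0, zero_mul] at h
    exact mul_ne_zero hE.ne_zero hμ h.symm
  have h1 := congrArg natDegree h
  have h2 := congrArg natTrailingDegree h
  rw [natDegree_mul hl hD.ne_zero, natDegree_mul hE.ne_zero hμ] at h1
  rw [natTrailingDegree_mul hl hD.ne_zero, natTrailingDegree_mul hE.ne_zero hμ,
    natTrailingDegree_eq_zero.2 (Or.inr hD0), natTrailingDegree_eq_zero.2 (Or.inr hE0)] at h2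
  have h3 := natTrailingDegree_le_of_ne_zero hj
  have h4 := le_natDegree_of_ne_zero hj
  exact ⟨hl, by omega, by omega⟩

theorem prod_facts {ι : Type} (G : Finset ι) (y : ι → k) (hy : ∀ a, y a ≠ 0) (n : ι → ℕ) :
    (∏ a ∈ G, (X - C (y a)) ^ n a).Monic ∧ (∏ a ∈ G, (X - C (y a)) ^ n a).coeff 0 ≠ 0 ∧
      (∏ a ∈ G, (X - C (y a)) ^ n a).natDegree = ∑ a ∈ G, n a := by
  refine ⟨monic_prod_of_monic _ _ fun a _ => (monic_X_sub_C _).pow _, ?_, ?_⟩
  · rw [coeff_zero_eq_eval_zero, eval_prod, Finset.prod_ne_zero_iff]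
    intro a _
    simp [hy a]
  · rw [natDegree_prod_of_monic _ _ fun a _ => (monic_X_sub_C _).pow _]
    refine Finset.sum_congr rfl fun a _ => ?_
    rw [natDegree_pow, natDegree_X_sub_C, mul_one]

theorem prod_dvd {ι : Type} (G : Finset ι) {y : ι → k} (hy : Function.Injective y) (n : ι → ℕ)
    {f : k[X]} (h : ∀ a ∈ G, (X - C (y a)) ^ n a ∣ f) : ∏ a ∈ G, (X - C (y a)) ^ n a ∣ f :=
  Finset.prod_dvd_of_coprime (fun a _ b _ hab => (pairwise_coprime_X_sub_C hy hab).pow) h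

/-- **The core theorem.** -/
theorem core [Infinite k] {ι : Type} [Fintype ι] [DecidableEq ι] {S : Finset (Fin 2 →₀ ℕ)}
    {s D Q : ℕ} (hLA : ∀ A B : ℕ, 0 < A → 0 < B → LA k S s D Q A B) (hQ : s * Q ≤ D) (hD : 1 ≤ D)
    (hs : 2 ≤ s) (G : Finset ι) (hG : G.card < s) (hr : s < Fintype.card ι) (m : ι → ℕ)
    (he : (D : ℤ) - ∑ a ∈ G, (m a : ℤ) ≤ 0 ∨ (Gᶜ.card : ℤ) * ((D : ℤ) - ∑ a ∈ G, (m a : ℤ)) ^ 2 ≤
      ((s : ℤ) - G.card) * (∑ a ∈ Gᶜ, (m a : ℤ)) ^ 2) :
    ∃ w : ι → Fin 2 → PowerSeries k, ¬ Ex S m w := by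
  classical
  set φ : ℕ → ℕ := fun t => ∑ a ∈ Gᶜ, (m a - t) with hφ
  have hcard : G.card + Gᶜ.card = Fintype.card ι := Finset.card_add_card_compl G
  obtain ⟨u, v, hv, hu, H⟩ := exists_slope (n := (s : ℤ) - G.card) (g := Gᶜ.card)
    (e := (D : ℤ) - ∑ a ∈ G, (m a : ℤ)) (S := ∑ a ∈ Gᶜ, (m a : ℤ)) φ (by omega) (by omega)
    (by positivity) he (fun t => by
      rw [hφ]
      push_cast
      rw [← nsmul_eq_mul, ← Finset.sum_const, ← Finset.sum_sub_distrib]
      exact Finset.sum_le_sum fun a _ => by omega)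
  obtain ⟨A, B, N, hA, hB, hw⟩ := arith (s := s) (D := D) φ (by omega) (by omega) (by omega) hv hu H
  obtain ⟨c, xy, hxy⟩ := hLA A B hA hB
  -- the points
  obtain ⟨y, hyi, hy0⟩ : ∃ y : ι → k, Function.Injective y ∧ ∀ a, y a ≠ 0 := by
    have : Infinite {a : k // a ≠ 0} := (Set.Finite.infinite_compl (Set.finite_singleton 0)).to_subtype
    let f : ι ↪ {a : k // a ≠ 0} := (Fintype.equivFin ι).toEmbedding.trans
      (Fin.valEmbedding.trans (Infinite.natEmbedding _))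
    exact ⟨fun a => f a, Subtype.val_injective.comp f.injective, fun a => (f a).2⟩
  set DG : k[X] := ∏ a ∈ G, (X - C (y a)) ^ 1 with hDG
  set E : k[X] := ∏ a ∈ G, (X - C (y a)) ^ m a with hE
  obtain ⟨hD1, hD2, hD3⟩ := prod_facts G y hy0 (fun _ => 1)
  obtain ⟨hE1, hE2, hE3⟩ := prod_facts G y hy0 m
  rw [← hDG] at hD1 hD2 hD3
  rw [← hE] at hE1 hE2 hE3
  refine ⟨fun a j => ev1 A B c (Units.mk0 (y a) (hy0 a)) (DG.eval (y a) * (y a)⁻¹ ^ N) (xy j), ?_⟩
  rintro ⟨P, hP0, hPS, hPm⟩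
  obtain ⟨e, lam, ⟨q₀, hq₀, hlam₀⟩, hwin, hev⟩ := hxy P hP0 hPS
  obtain ⟨H₀, l, hl⟩ := exists_poly Q lam
  -- the points on the curve
  have h1 : ∀ q ≤ Q, E ∣ l q * DG ^ q := by
    intro q hq
    refine prod_dvd G hyi m fun a ha => ?_
    have h0 : DG.eval (y a) = (0 : k[X]).eval (y a) := by
      rw [hDG, eval_prod, eval_zero]
      exact Finset.prod_eq_zero ha (by simp)
    have h2 := hPm a
    simp only [h0] at h2
    have h3 := point_dvd xy (hy0 a) 0 1 h2 hl hev q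
    simp only [C_0, C_1, zero_add, one_mul, finset_sum_coeff, coeff_C_mul, coeff_X_pow, mul_ite,
      mul_one, mul_zero, Finset.sum_ite_eq, Finset.mem_range, Nat.lt_succ_iff, hq, if_true] at h3
    have h4 : IsCoprime ((X - C (y a)) ^ (m a - q)) (X ^ (N * (Q - q))) := by
      have := isCoprime_X_sub_C_of_isUnit_sub (a := y a) (b := 0)
        (by rw [sub_zero]; exact IsUnit.mk0 _ (hy0 a))
      rw [C_0, sub_zero] at this
      exact this.pow
    have h5 := h4.dvd_of_dvd_mul_right h3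
    have h6 : (X - C (y a)) ^ q ∣ DG ^ q :=
      pow_dvd_pow_of_dvd ((dvd_pow_self _ one_ne_zero).trans
        (Finset.dvd_prod_of_mem (fun a => (X - C (y a)) ^ 1) ha)) q
    refine (pow_dvd_pow _ (by omega : m a ≤ m a - q + q)).trans ?_
    rw [pow_add]
    exact mul_dvd_mul h5 h6
  choose! μ hμ using h1
  refine (fun hν => ?_ : (∀ q ≤ Q, μ q * X ^ (N * (Q - q)) = 0) → False)
    (tent (Q := Q) (fun q => μ q * X ^ (N * (Q - q))) φ
      (fun t => ∏ a ∈ Gᶜ, (X - C (y a)) ^ (m a - t)) (fun t => (prod_facts _ y hy0 _).2.1)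
      (fun t => (prod_facts _ y hy0 _).2.2.ge) ?_ ?_)
  · have h2 : μ q₀ = 0 :=
      (mul_eq_zero.1 (hν q₀ hq₀)).resolve_right (pow_ne_zero _ X_ne_zero)
    have h3 := hμ q₀ hq₀
    rw [h2, mul_zero] at h3
    have h4 : l q₀ = 0 := (mul_eq_zero.1 h3).resolve_right (pow_ne_zero _ hD1.ne_zero)
    have h5 := hl q₀ hq₀
    rw [h4, map_zero] at h5
    exact hlam₀ ((LaurentPolynomial.isUnit_T H₀).mul_left_eq_zero.1 h5.symm)
  · intro t
    refine prod_dvd _ hyi _ fun a ha => ?_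
    have h3 := point_dvd xy (hy0 a) DG DG (hPm a) hl hev t
    have h4 : (∑ q ∈ Finset.range (Q + 1),
        C (l q * X ^ (N * (Q - q))) * (C DG + C DG * X) ^ q : k[X][X]).coeff t =
        E * ∑ q ∈ Finset.range (Q + 1), C (q.choose t : k) * (μ q * X ^ (N * (Q - q))) := by
      rw [finset_sum_coeff, Finset.mul_sum]
      refine Finset.sum_congr rfl fun q hq => ?_
      rw [Finset.mem_range] at hq
      rw [← mul_one_add, mul_pow, ← C_pow, ← mul_assoc, ← C_mul, coeff_C_mul, coeff_one_add_X_pow,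
        map_natCast]
      linear_combination (X ^ (N * (Q - q)) * (q.choose t : k[X])) * hμ q (by omega)
    rw [h4] at h3
    refine IsCoprime.dvd_of_dvd_mul_left ?_ h3
    rw [hE]
    refine IsCoprime.prod_right fun b hb => ?_
    have hab : a ≠ b := by
      rintro rfl
      exact (Finset.mem_compl.1 ha) hb
    exact (pairwise_coprime_X_sub_C hyi hab).pow
  · intro t
    obtain ⟨A', hA'⟩ := hw t
    have key : ∀ q ≤ Q, ∀ i : ℕ, (μ q * X ^ (N * (Q - q))).coeff i ≠ 0 →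
        Wd s ((s : ℤ) - G.card) D ((D : ℤ) - ∑ a ∈ G, (m a : ℤ)) A B N q ((i : ℤ) - H₀ - N * Q) := by
      intro q hq i hi
      rw [coeff_mul_X_pow'] at hi
      split_ifs at hi with hle
      swap
      · exact absurd rfl hi
      obtain ⟨j, rfl⟩ := Nat.exists_eq_add_of_le' hle
      rw [Nat.add_sub_cancel] at hi
      obtain ⟨f1, f2, f3⟩ := window_mu (hD1.pow q) hE1
        (by rw [coeff_zero_eq_eval_zero, eval_pow, ← coeff_zero_eq_eval_zero]; exact pow_ne_zero _ hD2)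
        hE2 (hμ q hq) hi
      have g1 := (hwin q hq _ (by
        rw [← coeff_of_toLaurent (hl q hq)]; exact trailingCoeff_nonzero_iff_nonzero.2 f1)).2
      have g2 := (hwin q hq _ (by
        rw [← coeff_of_toLaurent (hl q hq)]; exact leadingCoeff_ne_zero.2 f1)).1
      rw [hE3, hD1.natDegree_pow, hD3] at f3
      simp only [Finset.sum_const, smul_eq_mul, mul_one] at f3
      have f2' : ((l q).natTrailingDegree : ℤ) ≤ j := by exact_mod_cast f2
      have f3' : (j : ℤ) + ∑ a ∈ G, (m a : ℤ) ≤ (l q).natDegree + q * G.card := by exact_mod_cast f3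
      have e1 : ((j + N * (Q - q) : ℕ) : ℤ) - H₀ - N * Q + N * q = j - H₀ := by
        push_cast [hq]
        ring
      have hM : (0 : ℤ) ≤ (A : ℤ) + B := by positivity
      unfold Wd
      rw [e1]
      constructor
      · have := mul_le_mul_of_nonneg_left (sub_le_sub_right f2' H₀) hM
        linarith
      · have := mul_le_mul_of_nonneg_left f3' hM
        linarith
    refine ⟨A' + H₀ + N * Q, fun q₁ q₂ i h12 hq2 w1 w2 => ?_⟩
    have h2 : (s : ℤ) * q₂ ≤ D := by exact_mod_cast (Nat.mul_le_mul_left s hq2).trans hQ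
    have := hA' q₁ q₂ _ h12 h2 (key q₁ (by omega) i w1) (key q₂ hq2 i w2)
    omega

end Vale.Agent.N279
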