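import Mathlib

namespace Vale.Agent.N279

/-- The weighted sum of multiplicities: weight `1` on `G` and `√((s - |G|) / (r - |G|))` off `G`. -/
noncomputable def wsum {r : ℕ} (s : ℕ) (G : Finset (Fin r)) (m : Fin r → ℕ) : ℝ :=
  ∑ i ∈ G, (m i : ℝ) +
    √(((s : ℝ) - G.card) / ((r : ℝ) - G.card)) * ∑ i ∈ Compl.compl G, (m i : ℝ)

end Vale.Agent.N279
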