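import Vale.Agent.N279.Core

/-!
# Digits with respect to a curve, and the leading term statement
-/

set_option linter.all false

namespace Vale.Agent.N279

open Vale.Agent.P279 Vale.Agent.P279.H35

universe u

section Digits

open MvPolynomial

variable {A : Type*} [CommRing A] {ι : Type} [Fintype ι]

/-- The property of having digits with respect to `f`. -/
def HasDig (f : MvPolynomial (Fin 2) A) (mon : ι → MvPolynomial (Fin 2) A) (I : ℕ → Set ι) (Q : ℕ)
    (P : MvPolynomial (Fin 2) A) : Prop :=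
  ∃ c : ℕ → ι → A, (∀ q i, i ∉ I q → c q i = 0) ∧
    P = ∑ q ∈ Finset.range (Q + 1), f ^ q * ∑ i, C (c q i) * mon i

variable {f : MvPolynomial (Fin 2) A} {mon : ι → MvPolynomial (Fin 2) A} {I : ℕ → Set ι} {Q : ℕ}

theorem HasDig.zero : HasDig f mon I Q 0 := ⟨fun _ _ => 0, fun _ _ _ => rfl, by simp⟩

theorem HasDig.add {P P' : MvPolynomial (Fin 2) A} (hP : HasDig f mon I Q P)
    (hP' : HasDig f mon I Q P') : HasDig f mon I Q (P + P') := by
  obtain ⟨c, hc, rfl⟩ := hP
  obtain ⟨d, hd, rfl⟩ := hP'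
  refine ⟨fun q i => c q i + d q i, fun q i h => by simp [hc q i h, hd q i h], ?_⟩
  simp only [map_add, add_mul, Finset.sum_add_distrib, mul_add]

theorem HasDig.C_mul {P : MvPolynomial (Fin 2) A} (a : A) (hP : HasDig f mon I Q P) :
    HasDig f mon I Q (C a * P) := by
  obtain ⟨c, hc, rfl⟩ := hP
  refine ⟨fun q i => a * c q i, fun q i h => by simp [hc q i h], ?_⟩
  simp only [map_mul, Finset.mul_sum]
  refine Finset.sum_congr rfl fun q _ => Finset.sum_congr rfl fun i _ => ?_
  ring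

theorem HasDig.sub {P P' : MvPolynomial (Fin 2) A} (hP : HasDig f mon I Q P)
    (hP' : HasDig f mon I Q P') : HasDig f mon I Q (P - P') := by
  have := hP.add (hP'.C_mul (-1))
  simpa [sub_eq_add_neg] using this

theorem HasDig.gen {q : ℕ} (hq : q ≤ Q) {i : ι} (hi : i ∈ I q) : HasDig f mon I Q (f ^ q * mon i) := by
  classical
  refine ⟨fun q' i' => if q' = q ∧ i' = i then 1 else 0, ?_, ?_⟩
  · intro q' i' h'
    beta_reduce
    rw [if_neg]
    rintro ⟨rfl, rfl⟩
    exact h' hi
  · rw [Finset.sum_eq_single_of_mem q (Finset.mem_range.2 (by omega)),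
      Finset.sum_eq_single_of_mem i (Finset.mem_univ _)]
    · simp
    · intro i' _ hi'
      simp [hi']
    · intro q' _ hq'
      simp [hq']

theorem HasDig.of_monomial {S : Finset (Fin 2 →₀ ℕ)}
    (h : ∀ δ ∈ S, HasDig f mon I Q (X 0 ^ δ 0 * X 1 ^ δ 1)) {P : MvPolynomial (Fin 2) A}
    (hP : P.support ⊆ S) : HasDig f mon I Q P := by
  classical
  rw [P.as_sum]
  refine Finset.sum_induction _ _ (fun a b => HasDig.add) HasDig.zero fun v hv => ?_
  have : monomial v (coeff v P) = C (coeff v P) * (X 0 ^ (v 0) * X 1 ^ (v 1)) := by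
    rw [monomial_eq]
    simp [Finsupp.prod_fintype]
  rw [this]
  exact (h v (hP hv)).C_mul _

end Digits

section General

open MvPolynomial

variable {k : Type u} [Field k] {ι : Type} [Fintype ι]

/-- The leading term statement from digits, local coordinates and the bound on the two branches. -/
theorem la_of {S : Finset (Fin 2 →₀ ℕ)} {s D Q A B : ℕ} (hA : 0 < A) (hB : 0 < B) (hQ : s * Q ≤ D)
    (f₀ : MvPolynomial (Fin 2) k) (mon : ι → MvPolynomial (Fin 2) k) (I : ℕ → Set ι)
    (hdig : ∀ τ : PowerSeries k, ∀ δ ∈ S, HasDig (map (algebraMap k (PowerSeries k)) f₀ - C τ)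
      (fun i => map (algebraMap k (PowerSeries k)) (mon i)) I Q (X 0 ^ δ 0 * X 1 ^ δ 1))
    (hloc : ∀ M : ℕ, ∃ xy : Fin 2 → MvPolynomial (Fin 2) k,
      aeval xy f₀ - X 0 * X 1 ∈ idealOfVars (Fin 2) k ^ M ∧
      ∀ q ≤ Q, Win (fun i => aeval xy (mon i)) (I q) (D - s * q)) :
    LA k S s D Q A B := by
  obtain ⟨xy, h1, h2⟩ := hloc (A + B + (D * A * B + 1) + 1)
  refine ⟨D * A * B + 1, xy, fun P hP hPS => ?_⟩
  obtain ⟨d, hd, hPd⟩ := HasDig.of_monomial (hdig (PowerSeries.X ^ (A + B))) hPS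
  have hne : ∃ q ≤ Q, ∃ i, d q i ≠ 0 := by
    by_contra hcon
    push Not at hcon
    apply hP
    rw [hPd]
    refine Finset.sum_eq_zero fun q hq => ?_
    rw [Finset.mem_range] at hq
    simp [hcon q (by omega)]
  obtain ⟨e, lam, g1, g2, g3⟩ := la_abs hA hB h1 I (fun q => D - s * q) h2 (fun q _ => by
    have e1 : (D - s * q) * A * B ≤ D * A * B := by gcongr; omega
    have e2 : 1 * (D * A * B + 1) ≤ (A + B) * (D * A * B + 1) := by gcongr; omega
    omega) d hd hne
  refine ⟨e, lam, g1, fun q hq p hp => ?_, fun 𝔅 _ _ x z => ?_⟩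
  · have h3 : s * q ≤ D := (Nat.mul_le_mul_left s hq).trans hQ
    have := g2 q hq p hp
    push_cast [h3] at this
    exact this
  · rw [← g3 𝔅 x z]
    congr 1
    have key : ∀ g : MvPolynomial (Fin 2) k, eval₂ (PowerSeries.map (algebraMap k 𝔅))
        (fun j => ev1 A B (D * A * B + 1) x z (xy j)) (map (algebraMap k (PowerSeries k)) g) =
        ev1 A B (D * A * B + 1) x z (aeval xy g) := by
      intro g
      rw [eval₂_map, ← AlgHom.comp_apply, comp_aeval, aeval_def]
      congr 1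
    rw [hPd, eval₂_sum]
    refine Finset.sum_congr rfl fun q _ => ?_
    rw [eval₂_mul, eval₂_pow, eval₂_sub, key, eval₂_C, map_pow, PowerSeries.map_X, eval₂_sum, blk]
    congr 1
    refine Finset.sum_congr rfl fun i _ => ?_
    rw [eval₂_mul, eval₂_C, key]

end General

section OneVar

open Polynomial

variable {k : Type u} [Field k]

theorem rootMultiplicity_add_le {g : k[X]} (hg : g ≠ 0) {a b : k} (hab : a ≠ b) :
    g.rootMultiplicity a + g.rootMultiplicity b ≤ g.natDegree := by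
  have h1 : (X - C a) ^ g.rootMultiplicity a * (X - C b) ^ g.rootMultiplicity b ∣ g :=
    (isCoprime_X_sub_C_of_isUnit_sub (IsUnit.mk0 _ (sub_ne_zero.2 hab))).pow.mul_dvd
      (pow_rootMultiplicity_dvd g a) (pow_rootMultiplicity_dvd g b)
  have h2 := natDegree_le_of_dvd h1 hg
  rwa [((monic_X_sub_C a).pow _).natDegree_mul ((monic_X_sub_C b).pow _), natDegree_pow,
    natDegree_pow, natDegree_X_sub_C, natDegree_X_sub_C, mul_one, mul_one] at h2

/-- Newton iteration modulo the powers of an ideal. -/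
theorem newton {R : Type*} [CommRing R] (I : Ideal R) (Φ : R[X]) (c : R) (h0 : Φ.eval 0 ∈ I)
    (h1 : c * Φ.derivative.eval 0 - 1 ∈ I) (M : ℕ) : ∃ u ∈ I, Φ.eval u ∈ I ^ (M + 1) := by
  induction M with
  | zero => exact ⟨0, I.zero_mem, by rwa [zero_add, pow_one]⟩
  | succ M ih =>
    obtain ⟨u, hu, hΦ⟩ := ih
    have hΦ1 : Φ.eval u ∈ I := Ideal.pow_le_self (Nat.succ_ne_zero M) hΦ
    refine ⟨u + -(c * Φ.eval u), add_mem hu (neg_mem (Ideal.mul_mem_left _ _ hΦ1)), ?_⟩
    obtain ⟨κ, hκ⟩ := Φ.binomExpansion u (-(c * Φ.eval u))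
    have h2 : c * Φ.derivative.eval u - 1 ∈ I := by
      obtain ⟨w, hw⟩ := sub_dvd_eval_sub u 0 Φ.derivative
      have : c * Φ.derivative.eval u - 1 = c * Φ.derivative.eval 0 - 1 + c * w * u := by
        linear_combination c * hw
      rw [this]
      exact add_mem h1 (Ideal.mul_mem_left _ _ hu)
    have h3 : Φ.eval (u + -(c * Φ.eval u)) =
        Φ.eval u * (κ * c ^ 2 * Φ.eval u - (c * Φ.derivative.eval u - 1)) := by
      rw [hκ]; ring
    rw [h3, pow_succ]
    exact Ideal.mul_mem_mul hΦ (sub_mem (Ideal.mul_mem_left _ _ hΦ1) h2)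

/-- The power sums of the roots of `Z ^ 2 + Z - x`. -/
noncomputable def ps (k : Type u) [Field k] : ℕ → k[X]
  | 0 => 2
  | 1 => -1
  | n + 2 => X * ps k n - ps k (n + 1)

theorem ps_comp (n : ℕ) : (ps k n).comp (X ^ 2 + X) = X ^ n + (-1 - X) ^ n := by
  induction n using Nat.twoStepInduction with
  | zero => simp [ps]; norm_num
  | one => simp [ps]
  | more n h1 h2 =>
    rw [ps, sub_comp, mul_comp, X_comp, h1, h2]
    ring

theorem ps_natDegree (n : ℕ) : (ps k n).natDegree ≤ n ∧ (ps k (n + 1)).natDegree ≤ n := by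
  induction n with
  | zero => simp [ps]
  | succ n ih =>
    refine ⟨ih.2.trans (by omega), ?_⟩
    rw [ps]
    refine (natDegree_sub_le _ _).trans (max_le ?_ (ih.2.trans (by omega)))
    refine natDegree_mul_le.trans ?_
    have := natDegree_X_le (R := k)
    omega

end OneVar

end Vale.Agent.N279
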