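import Vale.Agent.N279.Dig

/-!
# Rational nodal curves `x = s² + s`, `y = x a(s) / b(s)` over any field

The node is the origin, with parameters `s = 0` and `s = -1`.
-/

set_option linter.all false

namespace Vale.Agent.N279

open Vale.Agent.P279 Vale.Agent.P279.H35 Polynomial

universe u

/-- The data of the curve. -/
structure Hyp (k : Type u) [Field k] where
  a : k[X]
  b : k[X]
  N : k[X]
  T : k[X]
  E : k[X]
  hN : N.comp (X ^ 2 + X) = b * b.comp (-1 - X)
  hT : T.comp (X ^ 2 + X) = a * b.comp (-1 - X) + a.comp (-1 - X) * b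
  hE : E.comp (X ^ 2 + X) = a * a.comp (-1 - X)
  b0 : b.eval 0 ≠ 0
  b1 : b.eval (-1) ≠ 0
  hκ : a.eval (-1) * b.eval 0 - a.eval 0 * b.eval (-1) ≠ 0

variable {k : Type u} [Field k]

/-- A polynomial in the first variable. -/
noncomputable abbrev inX (p : k[X]) : MvPolynomial (Fin 2) k := aeval (MvPolynomial.X 0) p

/-- The equation of the curve. -/
noncomputable def Hyp.f (H : Hyp k) : MvPolynomial (Fin 2) k :=
  inX H.N * MvPolynomial.X 1 ^ 2 - MvPolynomial.X 0 * inX H.T * MvPolynomial.X 1 +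
    MvPolynomial.X 0 ^ 2 * inX H.E

theorem aeval_inX {R : Type*} [CommRing R] [Algebra k R] (v : Fin 2 → R) (p : k[X]) :
    MvPolynomial.aeval v (inX p) = aeval (v 0) p := by
  rw [inX, ← aeval_algHom_apply, MvPolynomial.aeval_X]

theorem Hyp.factor (H : Hyp k) {R : Type*} [CommRing R] [Algebra k R] (u y : R) :
    MvPolynomial.aeval ![u ^ 2 + u, y] H.f = (aeval u H.b * y - (u ^ 2 + u) * aeval u H.a) *
      (aeval (-1 - u) H.b * y - (u ^ 2 + u) * aeval (-1 - u) H.a) := by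
  have h1 := congrArg (aeval u) H.hN
  have h2 := congrArg (aeval u) H.hT
  have h3 := congrArg (aeval u) H.hE
  simp only [aeval_comp, map_add, map_mul, map_pow, aeval_X, map_sub, map_neg, map_one] at h1 h2 h3
  simp only [Hyp.f, map_add, map_sub, map_mul, map_pow, aeval_inX, MvPolynomial.aeval_X,
    Matrix.cons_val_zero, Matrix.cons_val_one, h1, h2, h3]
  ring

theorem pow_dvd_of_mem {T : Type*} [CommRing T] [Algebra k T] (φ : MvPolynomial (Fin 2) k →ₐ[k] T)
    (t : T) (h : ∀ j, t ∣ φ (MvPolynomial.X j)) {M : ℕ} {R : MvPolynomial (Fin 2) k}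
    (hR : R ∈ MvPolynomial.idealOfVars (Fin 2) k ^ M) : t ^ M ∣ φ R := by
  have h1 : Ideal.map φ (MvPolynomial.idealOfVars (Fin 2) k) ≤ Ideal.span {t} := by
    rw [MvPolynomial.idealOfVars, Ideal.map_span, Ideal.span_le]
    rintro _ ⟨_, ⟨i, rfl⟩, rfl⟩
    rw [SetLike.mem_coe, Ideal.mem_span_singleton]
    exact h i
  have h2 := Ideal.mem_map_of_mem φ hR
  rw [Ideal.map_pow] at h2
  have h3 := Ideal.pow_right_mono h1 M h2
  rwa [Ideal.span_singleton_pow, Ideal.mem_span_singleton] at h3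

theorem coeff_one_ne {U W E : k[X]} (hU : X ∣ U) (h : X ^ 2 ∣ (U ^ 2 + U) * W - X * E)
    (hE : E.eval 0 ≠ 0) : U.coeff 1 ≠ 0 := by
  obtain ⟨V, rfl⟩ := hU
  have h1 : ((X * V) ^ 2 + X * V) * W - X * E = X * (V * (X * V + 1) * W - E) := by ring
  rw [h1, pow_two, mul_dvd_mul_iff_left X_ne_zero, X_dvd_iff, coeff_zero_eq_eval_zero] at h
  rw [coeff_X_mul, coeff_zero_eq_eval_zero]
  intro h0
  apply hE
  simpa [h0] using h

theorem aeval_sub_mem {R : Type*} [CommRing R] [Algebra k R] {I : Ideal R} {u : R} {c : k}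
    (hu : u - algebraMap k R c ∈ I) (p : k[X]) : aeval u p - algebraMap k R (p.eval c) ∈ I := by
  obtain ⟨w, hw⟩ := sub_dvd_eval_sub u (algebraMap k R c) (p.map (algebraMap k R))
  rw [eval_map_algebraMap, eval_map_algebraMap, aeval_algebraMap_apply_eq_algebraMap_eval] at hw
  rw [hw]
  exact Ideal.mul_mem_right _ _ hu

/-- One branch through the node. -/
def Hyp.Br (H : Hyp k) (M : ℕ) (c : k) (x y : k[X]) : Prop :=
  ∃ s : k[X], s.coeff 0 = c ∧ s.coeff 1 ≠ 0 ∧ x = s ^ 2 + s ∧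
    X ^ M ∣ H.b.comp s * y - (s ^ 2 + s) * H.a.comp s

/-- **Local coordinates at the node.** -/
theorem Hyp.loc (H : Hyp k) (M : ℕ) : ∃ xy : Fin 2 → MvPolynomial (Fin 2) k,
    MvPolynomial.aeval xy H.f - MvPolynomial.X 0 * MvPolynomial.X 1 ∈
      MvPolynomial.idealOfVars (Fin 2) k ^ M ∧
    H.Br M (-1) (ax0 k (xy 0)) (ax0 k (xy 1)) ∧ H.Br M 0 (ax1 k (xy 0)) (ax1 k (xy 1)) := by
  set I := MvPolynomial.idealOfVars (Fin 2) k with hI
  set ξ : MvPolynomial (Fin 2) k := MvPolynomial.X 0 with hξ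
  set η : MvPolynomial (Fin 2) k := MvPolynomial.X 1 with hη
  have hξI : ξ ∈ I := Ideal.subset_span ⟨0, rfl⟩
  have hηI : η ∈ I := Ideal.subset_span ⟨1, rfl⟩
  set al := algebraMap k (MvPolynomial (Fin 2) k) with hal
  set W : k[X] := H.a.comp (-1 - X) * H.b - H.a * H.b.comp (-1 - X) with hW
  set Nb : k[X] := H.b * H.b.comp (-1 - X) with hNb
  have hW0 : W.eval 0 ≠ 0 := by simpa [hW, eval_comp] using H.hκ
  obtain ⟨u, hu, hΦ⟩ := newton I (((X ^ 2 + X) * W).map al - C ξ * Nb.map al + C η)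
    (al (W.eval 0)⁻¹) (by
      simp only [eval_add, eval_sub, eval_mul, eval_C, Polynomial.map_mul, Polynomial.map_add,
        Polynomial.map_pow, map_X, eval_pow, eval_X]
      refine add_mem (sub_mem ?_ (Ideal.mul_mem_right _ _ hξI)) hηI
      simp) (by
      have e1 : (((X ^ 2 + X) * W).map al).derivative.eval 0 = al (W.eval 0) := by
        rw [derivative_map, eval_zero_map]
        simp
      simp only [derivative_add, derivative_sub, derivative_C, derivative_C_mul, eval_add, eval_sub,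
        eval_mul, eval_C, e1, eval_zero, add_zero]
      rw [mul_sub, ← map_mul, inv_mul_cancel₀ hW0, map_one]
      have : ∀ w : MvPolynomial (Fin 2) k, 1 - al (W.eval 0)⁻¹ * (ξ * w) - 1 =
        (-(al (W.eval 0)⁻¹ * w)) * ξ := fun w => by ring
      rw [this]
      exact Ideal.mul_mem_left _ _ hξI) (M + 1)
  have hΦ' : (u ^ 2 + u) * (aeval (-1 - u) H.a * aeval u H.b - aeval u H.a * aeval (-1 - u) H.b) -
      ξ * (aeval u H.b * aeval (-1 - u) H.b) + η ∈ I ^ (M + 1 + 1) := by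
    simpa only [eval_add, eval_sub, eval_mul, eval_C, hal, eval_map_algebraMap, hW, hNb, map_mul,
      map_add, map_pow, map_sub, aeval_X, aeval_comp, map_neg, map_one] using hΦ
  have hbu : aeval u H.b - al (H.b.eval 0) ∈ I := aeval_sub_mem (by simpa using hu) _
  have hb1 : al (H.b.eval 0)⁻¹ * aeval u H.b - 1 ∈ I := by
    have : al (H.b.eval 0)⁻¹ * aeval u H.b - 1 = al (H.b.eval 0)⁻¹ * (aeval u H.b - al (H.b.eval 0)) := by
      rw [mul_sub, ← map_mul, inv_mul_cancel₀ H.b0, map_one]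
    rw [this]
    exact Ideal.mul_mem_left _ _ hbu
  obtain ⟨v, -, hv⟩ := newton I (C (aeval u H.b) * (C (al (H.b.eval 0)⁻¹) + X) - 1)
    (al (H.b.eval 0)⁻¹) (by simpa [mul_comm] using hb1) (by simpa using hb1) M
  set β := al (H.b.eval 0)⁻¹ + v with hβ
  have hβ1 : aeval u H.b * β - 1 ∈ I ^ M := by
    refine Ideal.pow_le_pow_right (Nat.le_succ M) ?_
    simpa using hv
  have hΦM := Ideal.pow_le_pow_right (by omega : M ≤ M + 1 + 1) hΦ'
  set y := (u ^ 2 + u) * aeval u H.a * β + ξ with hy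
  have e1 : aeval u H.b * y - (u ^ 2 + u) * aeval u H.a - aeval u H.b * ξ ∈ I ^ M := by
    have : aeval u H.b * y - (u ^ 2 + u) * aeval u H.a - aeval u H.b * ξ =
        (u ^ 2 + u) * aeval u H.a * (aeval u H.b * β - 1) := by rw [hy]; ring
    rw [this]
    exact Ideal.mul_mem_left _ _ hβ1
  have e2 : aeval (-1 - u) H.b * y - (u ^ 2 + u) * aeval (-1 - u) H.a - β * η ∈ I ^ M := by
    have : aeval (-1 - u) H.b * y - (u ^ 2 + u) * aeval (-1 - u) H.a - β * η =
        ((u ^ 2 + u) * aeval (-1 - u) H.a - ξ * aeval (-1 - u) H.b) * (aeval u H.b * β - 1) -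
        β * ((u ^ 2 + u) * (aeval (-1 - u) H.a * aeval u H.b - aeval u H.a * aeval (-1 - u) H.b) -
          ξ * (aeval u H.b * aeval (-1 - u) H.b) + η) := by rw [hy]; ring
    rw [this]
    exact sub_mem (Ideal.mul_mem_left _ _ hβ1) (Ideal.mul_mem_left _ _ hΦM)
  have a00 : ax0 k ξ = X := by simp [ax0, hξ]
  have a01 : ax0 k η = 0 := by simp [ax0, hη]
  have a10 : ax1 k ξ = 0 := by simp [ax1, hξ]
  have a11 : ax1 k η = X := by simp [ax1, hη]
  have d0 : ∀ j, X ∣ ax0 k (MvPolynomial.X j) := by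
    intro j
    fin_cases j
    · exact a00 ▸ dvd_rfl
    · exact a01 ▸ dvd_zero _
  have d1 : ∀ j, X ∣ ax1 k (MvPolynomial.X j) := by
    intro j
    fin_cases j
    · exact a10 ▸ dvd_zero _
    · exact a11 ▸ dvd_rfl
  have hu0 : X ∣ ax0 k u := by
    simpa using pow_dvd_of_mem (M := 1) (ax0 k) X d0 (by rwa [pow_one])
  have hu1 : X ∣ ax1 k u := by
    simpa using pow_dvd_of_mem (M := 1) (ax1 k) X d1 (by rwa [pow_one])
  have hu0' : (ax0 k u).eval 0 = 0 := by rwa [X_dvd_iff, coeff_zero_eq_eval_zero] at hu0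
  refine ⟨![u ^ 2 + u, y], ?_, ⟨-1 - ax0 k u, ?_, ?_, ?_, ?_⟩, ⟨ax1 k u, ?_, ?_, ?_, ?_⟩⟩
  · rw [H.factor]
    set p₁ := aeval u H.b * y - (u ^ 2 + u) * aeval u H.a
    set p₂ := aeval (-1 - u) H.b * y - (u ^ 2 + u) * aeval (-1 - u) H.a
    have : p₁ * p₂ - ξ * η = p₂ * (p₁ - aeval u H.b * ξ) + aeval u H.b * ξ * (p₂ - β * η) +
        ξ * η * (aeval u H.b * β - 1) := by ring
    rw [this]
    exact add_mem (add_mem (Ideal.mul_mem_left _ _ e1) (Ideal.mul_mem_left _ _ e2))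
      (Ideal.mul_mem_left _ _ hβ1)
  · rw [coeff_zero_eq_eval_zero]
    simp [hu0']
  · have h1 := (pow_dvd_pow X (by omega : 2 ≤ M + 1 + 1)).trans (pow_dvd_of_mem (ax0 k) X d0 hΦ')
    simp only [map_add, map_sub, map_mul, map_pow, a00, a01, add_zero] at h1
    have h2 := coeff_one_ne hu0 h1 (by
      rw [← aeval_algHom_apply, ← aeval_algHom_apply, ← comp_eq_aeval, ← comp_eq_aeval]
      simp [eval_comp, hu0', H.b0, H.b1])
    simpa [coeff_one] using h2
  · simp only [Matrix.cons_val_zero, map_add, map_pow]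
    ring
  · have h1 := pow_dvd_of_mem (ax0 k) X d0 e2
    simp only [map_add, map_sub, map_mul, map_pow, a01, mul_zero, sub_zero,
      ← aeval_algHom_apply, map_neg, map_one, ← comp_eq_aeval] at h1
    convert h1 using 1
    simp only [Matrix.cons_val_one, Matrix.cons_val_zero]
    ring
  · rwa [X_dvd_iff] at hu1
  · have h1 := (pow_dvd_pow X (by omega : 2 ≤ M + 1 + 1)).trans (pow_dvd_of_mem (ax1 k) X d1 hΦ')
    simp only [map_add, map_sub, map_mul, map_pow, a10, a11, zero_mul, sub_zero] at h1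
    refine coeff_one_ne (E := -1) hu1 (by simpa using h1) (by simp)
  · simp only [Matrix.cons_val_zero, map_add, map_pow]
  · have h1 := pow_dvd_of_mem (ax1 k) X d1 e1
    simp only [map_add, map_sub, map_mul, map_pow, a10, mul_zero, sub_zero,
      ← aeval_algHom_apply, ← comp_eq_aeval] at h1
    simpa only [Matrix.cons_val_one, Matrix.cons_val_zero] using h1

theorem Hyp.pseudo (H : Hyp k) (g : MvPolynomial (Fin 2) k) :
    ∃ (m : ℕ) (h : MvPolynomial (Fin 2) k) (r₀ r₁ : k[X]),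
      inX H.N ^ m * g = H.f * h + inX r₀ + inX r₁ * MvPolynomial.X 1 := by
  induction g using MvPolynomial.induction_on with
  | C c => exact ⟨0, 0, C c, 0, by simp [inX]⟩
  | add p q hp hq =>
    obtain ⟨m, h, r₀, r₁, e⟩ := hp
    obtain ⟨m', h', r₀', r₁', e'⟩ := hq
    refine ⟨m + m', inX H.N ^ m' * h + inX H.N ^ m * h', H.N ^ m' * r₀ + H.N ^ m * r₀',
      H.N ^ m' * r₁ + H.N ^ m * r₁', ?_⟩
    simp only [inX, map_add, map_mul, map_pow] at e e' ⊢
    rw [pow_add]
    linear_combination aeval (MvPolynomial.X 0) H.N ^ m' * e + aeval (MvPolynomial.X 0) H.N ^ m * e'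
  | mul_X p j hp =>
    obtain ⟨m, h, r₀, r₁, e⟩ := hp
    fin_cases j
    · refine ⟨m, h * MvPolynomial.X 0, r₀ * X, r₁ * X, ?_⟩
      simp only [inX, map_mul, aeval_X, Fin.zero_eta] at e ⊢
      linear_combination MvPolynomial.X 0 * e
    · refine ⟨m + 1, inX H.N * h * MvPolynomial.X 1 + inX r₁, -(r₁ * X ^ 2 * H.E),
        H.N * r₀ + r₁ * X * H.T, ?_⟩
      simp only [inX, map_mul, map_add, map_neg, map_pow, aeval_X, Fin.mk_one, Hyp.f] at e ⊢
      rw [pow_succ]
      linear_combination aeval (MvPolynomial.X 0) H.N * MvPolynomial.X 1 * e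

theorem comp_sq_eq_zero {r : k[X]} (h : r.comp (X ^ 2 + X) = 0) : r = 0 := by
  by_contra hr
  have h3 : (X ^ 2 + X : k[X]).natDegree = 2 := by compute_degree!
  rcases comp_eq_zero_iff.1 h with h1 | ⟨-, h1⟩
  · exact hr h1
  · rw [h1, natDegree_C] at h3
    omega

/-- A polynomial vanishing on the curve is a multiple of the equation, up to a power of `N`. -/
theorem Hyp.ker (H : Hyp k) {g : MvPolynomial (Fin 2) k}
    (hg : MvPolynomial.aeval ![algebraMap k[X] (FractionRing k[X]) (X ^ 2 + X),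
      algebraMap k[X] (FractionRing k[X]) ((X ^ 2 + X) * H.a) / algebraMap k[X] _ H.b] g = 0) :
    ∃ (m : ℕ) (h : MvPolynomial (Fin 2) k), inX H.N ^ m * g = H.f * h := by
  obtain ⟨m, h, r₀, r₁, e⟩ := H.pseudo g
  set ψ := algebraMap k[X] (FractionRing k[X]) with hψ
  have hinj : Function.Injective ψ := IsFractionRing.injective _ _
  have hb : H.b ≠ 0 := fun h0 => H.b0 (by rw [h0, eval_zero])
  have hb' : ψ H.b ≠ 0 := fun h0 => hb (hinj (by rw [h0, map_zero]))
  have hae : ∀ p q : k[X], aeval (ψ q) p = ψ (p.comp q) := fun p q => by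
    rw [comp_eq_aeval, hψ, aeval_algebraMap_apply]
  have hx : ψ (X ^ 2 + X) = ψ X ^ 2 + ψ X := by simp
  have h1 := congrArg (MvPolynomial.aeval ![ψ (X ^ 2 + X), ψ ((X ^ 2 + X) * H.a) / ψ H.b]) e
  have h2 : MvPolynomial.aeval ![ψ (X ^ 2 + X), ψ ((X ^ 2 + X) * H.a) / ψ H.b] H.f = 0 := by
    rw [hx, H.factor, hae, hae, comp_X, comp_X, mul_div_cancel₀ _ hb', map_mul, hx, sub_self,
      zero_mul]
  simp only [map_mul (MvPolynomial.aeval _), map_add (MvPolynomial.aeval _), hg, h2, aeval_inX,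
    MvPolynomial.aeval_X, Matrix.cons_val_zero, Matrix.cons_val_one, mul_zero, zero_mul, zero_add,
    hae] at h1
  have h3 : r₀.comp (X ^ 2 + X) * H.b + r₁.comp (X ^ 2 + X) * ((X ^ 2 + X) * H.a) = 0 := by
    apply hinj
    rw [map_add, map_mul, map_mul, map_zero]
    field_simp at h1
    linear_combination -h1
  have hσ : (X ^ 2 + X : k[X]).comp (-1 - X) = X ^ 2 + X := by
    simp only [add_comp, pow_comp, X_comp]
    ring
  have h4 := congrArg (fun p => p.comp (-1 - X)) h3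
  simp only [add_comp (p := _ * _), mul_comp, comp_assoc, hσ, zero_comp] at h4
  have h5 : r₁.comp (X ^ 2 + X) * ((X ^ 2 + X) *
      (H.a.comp (-1 - X) * H.b - H.a * H.b.comp (-1 - X))) = 0 := by
    linear_combination H.b * h4 - H.b.comp (-1 - X) * h3
  have h6 : (X ^ 2 + X : k[X]) ≠ 0 := by
    have : (X ^ 2 + X : k[X]).Monic := by monicity!
    exact this.ne_zero
  have h7 : H.a.comp (-1 - X) * H.b - H.a * H.b.comp (-1 - X) ≠ 0 := by
    intro h0
    have := congrArg (eval 0) h0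
    exact H.hκ (by simpa [eval_comp] using this)
  have h8 : r₁.comp (X ^ 2 + X) = 0 := (mul_eq_zero.1 h5).resolve_right (mul_ne_zero h6 h7)
  rw [h8, zero_mul, add_zero] at h3
  have h9 := comp_sq_eq_zero ((mul_eq_zero.1 h3).resolve_right hb)
  rw [h9, comp_sq_eq_zero h8] at e
  exact ⟨m, h, by simpa [inX] using e⟩

theorem Hyp.br_coeff (H : Hyp k) {ι : Type} [Fintype ι] (i l : ι → ℕ) (c : ι → k) {L M : ℕ}
    (hL : ∀ j, c j ≠ 0 → l j ≤ L) {z : k} {x y : k[X]} (hB : H.Br M z x y) {G : k[X]}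
    (hG : G = ∑ j, C (c j) * ((X ^ 2 + X) ^ i j * ((X ^ 2 + X) * H.a) ^ l j * H.b ^ (L - l j)))
    (hG0 : G ≠ 0) (hM : G.rootMultiplicity z < M) :
    ∃ α ≤ G.rootMultiplicity z, (∑ j, C (c j) * (x ^ i j * y ^ l j)).coeff α ≠ 0 := by
  obtain ⟨s, rfl, hs1, rfl, hd⟩ := hB
  by_contra hcon
  push Not at hcon
  have h1 : X ^ (G.rootMultiplicity (s.coeff 0) + 1) ∣
      ∑ j, C (c j) * ((s ^ 2 + s) ^ i j * y ^ l j) :=
    X_pow_dvd_iff.2 fun d hd => hcon d (by omega)
  have h2 : X ^ M ∣ H.b.comp s ^ L * (∑ j, C (c j) * ((s ^ 2 + s) ^ i j * y ^ l j)) - G.comp s := by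
    rw [hG, sum_comp, Finset.mul_sum, ← Finset.sum_sub_distrib]
    refine Finset.dvd_sum fun j _ => ?_
    by_cases hj : c j = 0
    · simp [hj]
    obtain ⟨n, rfl⟩ := Nat.exists_eq_add_of_le (hL j hj)
    simp only [mul_comp, pow_comp, add_comp, X_comp, C_comp, Nat.add_sub_cancel_left]
    have h3 := hd.trans (sub_dvd_pow_sub_pow (H.b.comp s * y) ((s ^ 2 + s) * H.a.comp s) (l j))
    convert h3.mul_left (C (c j) * (s ^ 2 + s) ^ i j * H.b.comp s ^ n) using 1
    rw [mul_pow, pow_add]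
    ring
  have h4 := dvd_sub (h1.mul_left (H.b.comp s ^ L)) ((pow_dvd_pow X hM).trans h2)
  rw [sub_sub_cancel] at h4
  exact coeff_comp_ne hG0 hs1 (X_pow_dvd_iff.1 h4 _ (Nat.lt_succ_self _))

/-- **The bound on the two branches.** -/
theorem Hyp.win (H : Hyp k) {ι : Type} [Fintype ι] (i l : ι → ℕ) (I : Set ι) {L δ M : ℕ}
    (hM : δ < M) (hL : ∀ j ∈ I, l j ≤ L)
    (hδ : ∀ j ∈ I, 2 * i j + (2 + H.a.natDegree) * l j + H.b.natDegree * (L - l j) ≤ δ)
    (hind : ∀ c : ι → k, (∀ j, j ∉ I → c j = 0) → ∀ (m : ℕ) (h : MvPolynomial (Fin 2) k),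
      inX H.N ^ m * ∑ j, MvPolynomial.C (c j) * (MvPolynomial.X 0 ^ i j * MvPolynomial.X 1 ^ l j) =
        H.f * h → ∀ j, c j = 0)
    {xy : Fin 2 → MvPolynomial (Fin 2) k} (h0 : H.Br M (-1) (ax0 k (xy 0)) (ax0 k (xy 1)))
    (h1 : H.Br M 0 (ax1 k (xy 0)) (ax1 k (xy 1))) :
    Win (fun j => MvPolynomial.aeval xy
      (MvPolynomial.X 0 ^ i j * MvPolynomial.X 1 ^ l j : MvPolynomial (Fin 2) k)) I δ := by
  intro c hc hne
  have hI : ∀ j, c j ≠ 0 → j ∈ I := fun j hj => by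
    by_contra h
    exact hj (hc j h)
  set G : k[X] := ∑ j, C (c j) * ((X ^ 2 + X) ^ i j * ((X ^ 2 + X) * H.a) ^ l j * H.b ^ (L - l j))
    with hG
  have hG0 : G ≠ 0 := by
    intro hz
    set ψ := algebraMap k[X] (FractionRing k[X]) with hψ
    have hb : H.b ≠ 0 := fun h0 => H.b0 (by rw [h0, eval_zero])
    have hb' : ψ H.b ≠ 0 := fun h0 => hb (IsFractionRing.injective _ (FractionRing k[X])
      (by rw [h0, map_zero]))
    obtain ⟨m, h, e⟩ := H.ker (g := ∑ j, MvPolynomial.C (c j) *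
      (MvPolynomial.X 0 ^ i j * MvPolynomial.X 1 ^ l j)) (by
        refine (mul_eq_zero.1 (?_ : ψ H.b ^ L * _ = 0)).resolve_left (pow_ne_zero _ hb')
        rw [← map_zero ψ, ← hz, hG, map_sum, map_sum, Finset.mul_sum]
        refine Finset.sum_congr rfl fun j _ => ?_
        by_cases hj : c j = 0
        · simp [hj]
        obtain ⟨n, rfl⟩ := Nat.exists_eq_add_of_le (hL j (hI j hj))
        have e1 : ψ (C (c j)) = algebraMap k _ (c j) := rfl
        simp only [map_mul (MvPolynomial.aeval _), map_pow (MvPolynomial.aeval _),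
          MvPolynomial.aeval_X, MvPolynomial.aeval_C, Matrix.cons_val_zero, Matrix.cons_val_one,
          Nat.add_sub_cancel_left]
        rw [← hψ, ← e1, div_pow, pow_add]
        simp only [map_mul ψ, map_pow ψ]
        field_simp)
    obtain ⟨j, hj⟩ := hne
    exact hj (hind c hc m h e j)
  have hGd : G.natDegree ≤ δ := by
    refine natDegree_sum_le_of_forall_le _ _ fun j _ => ?_
    by_cases hj : c j = 0
    · simp [hj]
    refine (natDegree_C_mul_le _ _).trans (le_trans ?_ (hδ j (hI j hj)))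
    have h3 : (X ^ 2 + X : k[X]).natDegree ≤ 2 := by compute_degree
    have h4 : ((X ^ 2 + X) * H.a).natDegree ≤ 2 + H.a.natDegree :=
      natDegree_mul_le.trans (by omega)
    refine natDegree_mul_le.trans (add_le_add (natDegree_mul_le.trans (add_le_add ?_ ?_)) ?_)
    · exact natDegree_pow_le.trans (by rw [mul_comm]; gcongr)
    · exact natDegree_pow_le.trans (by rw [mul_comm]; gcongr)
    · exact natDegree_pow_le.trans (by rw [mul_comm])
  have hs := (rootMultiplicity_add_le hG0 (neg_ne_zero.2 (one_ne_zero (α := k)))).trans hGd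
  obtain ⟨α, hα, e0⟩ := H.br_coeff i l c (fun j hj => hL j (hI j hj)) h0 hG hG0 (by omega)
  obtain ⟨β, hβ, e1⟩ := H.br_coeff i l c (fun j hj => hL j (hI j hj)) h1 hG hG0 (by omega)
  refine ⟨α, β, by omega, ?_, ?_⟩
  · rw [← coeff_ax0]
    simpa [Polynomial.algebraMap_apply] using e0
  · rw [← coeff_ax1]
    simpa [Polynomial.algebraMap_apply] using e1

end Vale.Agent.N279
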