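import Vale.Agent.N279.Hyp

/-!
# Nodal curves of degree `e ≥ 3` in the plane and of bidegree `(c, 2)` on the quadric
-/

set_option linter.all false

namespace Vale.Agent.N279

open Vale.Agent.P279 Vale.Agent.P279.H35 MvPolynomial

universe u

variable {k : Type u} [Field k]

section Help

variable {A : Type*} [CommRing A] [Algebra k A] {ι : Type} [Fintype ι]
  {f : MvPolynomial (Fin 2) A} {mon : ι → MvPolynomial (Fin 2) A} {I : ℕ → Set ι} {Q : ℕ}

theorem map_inX (p : Polynomial k) :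
    map (algebraMap k A) (inX p) = Polynomial.aeval (X 0 : MvPolynomial (Fin 2) A) p := by
  have := Polynomial.aeval_algHom_apply (mapAlgHom (σ := Fin 2) (Algebra.ofId k A)) (X 0) p
  simp only [mapAlgHom_apply, map_X] at this
  exact this.symm

theorem HasDig.poly {p : Polynomial k} {n : ℕ} (hp : p.natDegree ≤ n) (w : MvPolynomial (Fin 2) A)
    (i l : ℕ) (h : ∀ j ≤ n, HasDig f mon I Q (w * (X 0 ^ (i + j) * X 1 ^ l))) :
    HasDig f mon I Q (w * (X 0 ^ i * Polynomial.aeval (X 0 : MvPolynomial (Fin 2) A) p * X 1 ^ l)) := by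
  rw [Polynomial.aeval_eq_sum_range' (Nat.lt_succ_of_le hp), Finset.mul_sum, Finset.sum_mul,
    Finset.mul_sum]
  refine Finset.sum_induction _ _ (fun a b => HasDig.add) HasDig.zero fun j hj => ?_
  have := (h j (Nat.lt_succ_iff.1 (Finset.mem_range.1 hj))).C_mul (algebraMap k A (p.coeff j))
  convert this using 1
  rw [Algebra.smul_def, MvPolynomial.algebraMap_apply, pow_add]
  ring

theorem coeff_mon (i l : ι → ℕ) (c : ι → k) (δ : Fin 2 →₀ ℕ) :
    coeff δ (∑ j, C (c j) * (X 0 ^ i j * X 1 ^ l j) : MvPolynomial (Fin 2) k) =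
      ∑ j, if i j = δ 0 ∧ l j = δ 1 then c j else 0 := by
  classical
  rw [coeff_sum]
  refine Finset.sum_congr rfl fun j _ => ?_
  rw [X_pow_eq_monomial, X_pow_eq_monomial, monomial_mul, C_mul_monomial, coeff_monomial]
  simp only [mul_one]
  congr 1
  apply propext
  constructor
  · rintro rfl
    simp
  · rintro ⟨h1, h2⟩
    ext a
    fin_cases a <;> simp [h1, h2]

theorem exists_of_coeff {i l : ι → ℕ} {c : ι → k} {δ : Fin 2 →₀ ℕ}
    (h : coeff δ (∑ j, C (c j) * (X 0 ^ i j * X 1 ^ l j) : MvPolynomial (Fin 2) k) ≠ 0) :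
    ∃ j, c j ≠ 0 ∧ i j = δ 0 ∧ l j = δ 1 := by
  rw [coeff_mon] at h
  obtain ⟨j, -, hj⟩ := Finset.exists_ne_zero_of_sum_ne_zero h
  split_ifs at hj with h1
  · exact ⟨j, hj, h1⟩
  · exact absurd rfl hj

theorem eq_zero_of_mon {i l : ι → ℕ} (hinj : ∀ j j', i j = i j' → l j = l j' → j = j') {c : ι → k}
    (h : (∑ j, C (c j) * (X 0 ^ i j * X 1 ^ l j) : MvPolynomial (Fin 2) k) = 0) (j : ι) :
    c j = 0 := by
  have h1 := coeff_mon i l c (Finsupp.single 0 (i j) + Finsupp.single 1 (l j))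
  rw [h, coeff_zero, Finset.sum_eq_single_of_mem j (Finset.mem_univ _)] at h1
  · simpa using h1.symm
  · intro j' _ hj'
    rw [if_neg]
    rintro ⟨h2, h3⟩
    exact hj' (hinj _ _ (by simpa using h2) (by simpa using h3))

end Help

/-! ### The plane -/

/-- The exponents of degree at most `d`. -/
noncomputable def tri (d : ℕ) : Finset (Fin 2 →₀ ℕ) :=
  (Gen.finite_of_bdd {δ | δ 0 + δ 1 ≤ d} d fun _ h => h).toFinset

theorem mem_tri {d : ℕ} {δ : Fin 2 →₀ ℕ} : δ ∈ tri d ↔ δ 0 + δ 1 ≤ d := by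
  simp [tri]

/-- The plane curve `x = s² + s`, `y = x s ^ (n + 1)` of degree `n + 3`. -/
noncomputable def hypP (k : Type u) [Field k] (n : ℕ) : Hyp k where
  a := Polynomial.X ^ (n + 1)
  b := 1
  N := 1
  T := ps k (n + 1)
  E := (-Polynomial.X) ^ (n + 1)
  hN := by simp
  hT := by simp [ps_comp]
  hE := by
    simp only [Polynomial.pow_comp, Polynomial.neg_comp, Polynomial.X_comp, ← mul_pow]
    congr 1
    ring
  b0 := by simp
  b1 := by simp
  hκ := by simp

theorem hypP_f (n : ℕ) : (hypP k n).f =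
    X 1 ^ 2 - X 0 * inX (ps k (n + 1)) * X 1 + (-1) ^ (n + 1) * X 0 ^ (n + 3) := by
  simp only [Hyp.f, hypP, inX, map_one, map_pow, map_neg, Polynomial.aeval_X]
  rw [neg_pow (X 0 : MvPolynomial (Fin 2) k)]
  ring

theorem dig_plane {A : Type*} [CommRing A] [Algebra k A] (τ : A) (n d i : ℕ) :
    ∀ q l : ℕ, (n + 3) * q + i + l ≤ d →
    HasDig (map (algebraMap k A) (hypP k n).f - C τ)
      (fun j : Fin (n + 3) × Fin (d + 1) => X 0 ^ (j.1 : ℕ) * X 1 ^ (j.2 : ℕ))
      (fun q => {j | (n + 3) * q + j.1 + j.2 ≤ d}) (d / (n + 3))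
      ((map (algebraMap k A) (hypP k n).f - C τ) ^ q * (X 0 ^ i * X 1 ^ l)) := by
  induction i using Nat.strong_induction_on with
  | _ i ih =>
    intro q l h
    rcases Nat.lt_or_ge i (n + 3) with hi | hi
    · exact HasDig.gen (mon := fun j : Fin (n + 3) × Fin (d + 1) => X 0 ^ (j.1 : ℕ) * X 1 ^ (j.2 : ℕ))
        (I := fun q => {j | (n + 3) * q + j.1 + j.2 ≤ d}) (i := (⟨i, hi⟩, ⟨l, by omega⟩))
        ((Nat.le_div_iff_mul_le (by omega)).2 (by rw [mul_comm]; omega)) h
    · obtain ⟨i, rfl⟩ := Nat.exists_eq_add_of_le' hi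
      set f : MvPolynomial (Fin 2) A := map (algebraMap k A) (hypP k n).f - C τ with hf
      have hf' : f = X 1 ^ 2 - X 0 * Polynomial.aeval (X 0) (ps k (n + 1)) * X 1 +
          (-1) ^ (n + 1) * X 0 ^ (n + 3) - C τ := by
        rw [hf, hypP_f]
        simp [map_inX]
      have hs : ((-1 : MvPolynomial (Fin 2) A) ^ (n + 1)) * (-1) ^ (n + 1) = 1 := by
        rw [← mul_pow]; simp
      have key : f ^ q * (X 0 ^ (i + (n + 3)) * X 1 ^ l) = C ((-1) ^ (n + 1)) *
          (f ^ (q + 1) * (X 0 ^ i * X 1 ^ l) + C τ * (f ^ q * (X 0 ^ i * X 1 ^ l)) +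
            f ^ q * (X 0 ^ (i + 1) * Polynomial.aeval (X 0) (ps k (n + 1)) * X 1 ^ (l + 1)) -
            f ^ q * (X 0 ^ i * X 1 ^ (l + 2))) := by
        rw [map_pow, map_neg, map_one, pow_succ f]
        linear_combination (-(f ^ q * X 0 ^ i * X 1 ^ l * (-1) ^ (n + 1))) * hf' -
          (f ^ q * X 0 ^ (i + (n + 3)) * X 1 ^ l) * hs
      rw [key]
      refine HasDig.C_mul _ ((((ih i (by omega) (q + 1) l (by rw [mul_add]; omega)).add
        ((ih i (by omega) q l (by omega)).C_mul τ)).add ?_).sub (ih i (by omega) q (l + 2) (by omega)))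
      exact HasDig.poly (ps_natDegree n).2 _ _ _ fun j hj => ih _ (by omega) q _ (by omega)

theorem la_plane (n d : ℕ) {A B : ℕ} (hA : 0 < A) (hB : 0 < B) :
    LA k (tri d) ((n + 3) ^ 2) ((n + 3) * d) (d / (n + 3)) A B := by
  have hQ : (n + 3) * (d / (n + 3)) ≤ d := Nat.mul_div_le d (n + 3)
  refine la_of hA hB (by rw [pow_two, mul_assoc]; gcongr) (hypP k n).f
    (fun j : Fin (n + 3) × Fin (d + 1) => X 0 ^ (j.1 : ℕ) * X 1 ^ (j.2 : ℕ))
    (fun q => {j | (n + 3) * q + j.1 + j.2 ≤ d}) (fun τ δ hδ => ?_) (fun M => ?_)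
  · have := dig_plane (k := k) τ n d (δ 0) 0 (δ 1) (by rw [mem_tri] at hδ; omega)
    simpa using this
  obtain ⟨xy, h1, h2, h3⟩ := (hypP k n).loc (M + (n + 3) * d + 1)
  refine ⟨xy, Ideal.pow_le_pow_right (by omega) h1, fun q hq => ?_⟩
  refine (hypP k n).win (fun j : Fin (n + 3) × Fin (d + 1) => j.1) (fun j => j.2) _ (L := d)
    (by omega) (fun j _ => by omega) (fun j hj => ?_) (fun c _ m h e => ?_) h2 h3
  · have hj' : (n + 3) * q + j.1 + j.2 ≤ d := hj
    simp only [hypP, Polynomial.natDegree_pow, Polynomial.natDegree_X, Polynomial.natDegree_one]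
    apply Nat.le_sub_of_add_le
    nlinarith [Nat.mul_le_mul_left (n + 3) hj']
  · have hN : inX (hypP k n).N = 1 := by simp [hypP, inX]
    rw [hN, one_pow, one_mul] at e
    refine eq_zero_of_mon (i := fun j : Fin (n + 3) × Fin (d + 1) => j.1) (l := fun j => j.2)
      (fun j j' h1 h2 => Prod.ext (Fin.ext h1) (Fin.ext h2)) ?_
    by_contra hne
    have hc : coeff (Finsupp.single 0 (n + 3)) (hypP k n).f ≠ 0 := by
      rw [← coeff_ax0, hypP_f]
      have : ax0 k (X 1 ^ 2 - X 0 * inX (ps k (n + 1)) * X 1 + (-1) ^ (n + 1) * X 0 ^ (n + 3)) =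
          Polynomial.C ((-1) ^ (n + 1)) * Polynomial.X ^ (n + 3) := by
        simp [ax0]
      rw [this, Polynomial.coeff_C_mul, Polynomial.coeff_X_pow, if_pos rfl, mul_one]
      exact pow_ne_zero _ (neg_ne_zero.2 one_ne_zero)
    have h4 := monomial_le_degreeOf 0 (mem_support_iff.2 hc)
    have h5 : degreeOf 0 (∑ j : Fin (n + 3) × Fin (d + 1),
        C (c j) * (X 0 ^ (j.1 : ℕ) * X 1 ^ (j.2 : ℕ)) : MvPolynomial (Fin 2) k) < n + 3 :=
      (degreeOf_lt_iff (n := 0) (by omega : 0 < n + 3)).2 fun δ hδ => by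
        obtain ⟨j, -, hj, -⟩ := exists_of_coeff (mem_support_iff.1 hδ)
        exact hj ▸ j.1.2
    rw [e] at hne h5
    rw [degreeOf_mul_eq (left_ne_zero_of_mul hne) (right_ne_zero_of_mul hne)] at h5
    simp at h4
    omega

/-! ### The quadric -/

/-- The exponents of bidegree at most `(a, b)`. -/
noncomputable def box (a b : ℕ) : Finset (Fin 2 →₀ ℕ) :=
  (Gen.finite_of_bdd {δ | δ 0 ≤ a ∧ δ 1 ≤ b} (a + b) fun _ h => add_le_add h.1 h.2).toFinset

theorem mem_box {a b : ℕ} {δ : Fin 2 →₀ ℕ} : δ ∈ box a b ↔ δ 0 ≤ a ∧ δ 1 ≤ b := by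
  simp [box]

/-- The curve `x = s² + s`, `y = x / (s ^ (n + 2) + κ)` of bidegree `(n + 2, 2)`. -/
noncomputable def hypQ (n : ℕ) (κ : k) (h0 : κ ≠ 0) (h1 : (-1) ^ (n + 2) + κ ≠ 0) : Hyp k where
  a := 1
  b := Polynomial.X ^ (n + 2) + Polynomial.C κ
  N := (-Polynomial.X) ^ (n + 2) + (Polynomial.C κ * ps k (n + 2) + Polynomial.C (κ ^ 2))
  T := ps k (n + 2) + Polynomial.C (2 * κ)
  E := 1
  hN := by
    simp only [Polynomial.add_comp, Polynomial.pow_comp, Polynomial.neg_comp, Polynomial.X_comp,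
      Polynomial.mul_comp, Polynomial.C_comp, ps_comp, map_pow]
    have : (-(Polynomial.X ^ 2 + Polynomial.X) : Polynomial k) ^ (n + 2) =
        Polynomial.X ^ (n + 2) * (-1 - Polynomial.X) ^ (n + 2) := by
      rw [← mul_pow]
      congr 1
      ring
    rw [this]
    ring
  hT := by
    simp only [Polynomial.add_comp, Polynomial.pow_comp, Polynomial.X_comp, Polynomial.one_comp,
      Polynomial.C_comp, ps_comp]
    rw [map_mul, map_ofNat]
    ring
  hE := by simp
  b0 := by simpa using h0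
  b1 := by simpa using h1
  hκ := by simp

section Quadric

variable {n : ℕ} {κ : k} {h0 : κ ≠ 0} {h1 : (-1) ^ (n + 2) + κ ≠ 0}

theorem low_deg (n : ℕ) (κ : k) :
    (Polynomial.C κ * ps k (n + 2) + Polynomial.C (κ ^ 2)).natDegree ≤ n + 1 := by
  rw [Polynomial.natDegree_add_C]
  exact (Polynomial.natDegree_C_mul_le _ _).trans (ps_natDegree (n + 1)).2

theorem dig_quad {A : Type*} [CommRing A] [Algebra k A] (τ : A) (a b t : ℕ) :
    ∀ q i l : ℕ, i + l = t → (n + 2) * q + i ≤ a → 2 * q + l ≤ b →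
    HasDig (map (algebraMap k A) (hypQ n κ h0 h1).f - C τ)
      (fun j : Fin (a + 1) × Fin (b + 1) => X 0 ^ (j.1 : ℕ) * X 1 ^ (j.2 : ℕ))
      (fun q => {j | ((j.1 : ℕ) < n + 2 ∨ (j.2 : ℕ) < 2) ∧ (n + 2) * q + j.1 ≤ a ∧ 2 * q + j.2 ≤ b})
      (min (a / (n + 2)) (b / 2))
      ((map (algebraMap k A) (hypQ n κ h0 h1).f - C τ) ^ q * (X 0 ^ i * X 1 ^ l)) := by
  induction t using Nat.strong_induction_on with
  | _ t ih =>
    intro q i l ht ha hb
    by_cases hi : i < n + 2 ∨ l < 2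
    · exact HasDig.gen (mon := fun j : Fin (a + 1) × Fin (b + 1) => X 0 ^ (j.1 : ℕ) * X 1 ^ (j.2 : ℕ))
        (I := fun q => {j | ((j.1 : ℕ) < n + 2 ∨ (j.2 : ℕ) < 2) ∧ (n + 2) * q + j.1 ≤ a ∧
          2 * q + j.2 ≤ b}) (i := (⟨i, by omega⟩, ⟨l, by omega⟩))
        (le_min ((Nat.le_div_iff_mul_le (by omega)).2 (by rw [mul_comm]; omega)) (by omega))
        ⟨hi, ha, hb⟩
    · obtain ⟨i, rfl⟩ := Nat.exists_eq_add_of_le' (by omega : n + 2 ≤ i)
      obtain ⟨l, rfl⟩ := Nat.exists_eq_add_of_le' (by omega : 2 ≤ l)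
      set f : MvPolynomial (Fin 2) A := map (algebraMap k A) (hypQ n κ h0 h1).f - C τ with hf
      set N' := Polynomial.aeval (X 0 : MvPolynomial (Fin 2) A)
        (Polynomial.C κ * ps k (n + 2) + Polynomial.C (κ ^ 2)) with hN'
      set T' := Polynomial.aeval (X 0 : MvPolynomial (Fin 2) A)
        (ps k (n + 2) + Polynomial.C (2 * κ)) with hT'
      have hf' : f = ((-1) ^ (n + 2) * X 0 ^ (n + 2) + N') * X 1 ^ 2 - X 0 * T' * X 1 +
          X 0 ^ 2 - C τ := by
        rw [hf, hN', hT', ← neg_pow]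
        simp only [Hyp.f, hypQ, map_add (map _), map_sub (map _), map_mul (map _), map_pow (map _),
          map_X, map_inX, map_one, mul_one]
        rw [map_add, map_pow, map_neg, Polynomial.aeval_X]
      have hs : ((-1 : MvPolynomial (Fin 2) A) ^ (n + 2)) * (-1) ^ (n + 2) = 1 := by
        rw [← mul_pow]; simp
      have key : f ^ q * (X 0 ^ (i + (n + 2)) * X 1 ^ (l + 2)) = C ((-1) ^ (n + 2)) *
          (f ^ (q + 1) * (X 0 ^ i * X 1 ^ l) + C τ * (f ^ q * (X 0 ^ i * X 1 ^ l)) +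
            f ^ q * (X 0 ^ (i + 1) * T' * X 1 ^ (l + 1)) -
            f ^ q * (X 0 ^ (i + 2) * X 1 ^ l) - f ^ q * (X 0 ^ i * N' * X 1 ^ (l + 2))) := by
        rw [map_pow, map_neg, map_one, pow_succ f]
        linear_combination (-(f ^ q * X 0 ^ i * X 1 ^ l * (-1) ^ (n + 2))) * hf' -
          (f ^ q * X 0 ^ (i + (n + 2)) * X 1 ^ (l + 2)) * hs
      rw [key]
      refine HasDig.C_mul _ (((((ih _ (by omega) (q + 1) i l rfl (by rw [mul_add]; omega)
        (by omega)).add ((ih _ (by omega) q i l rfl (by omega) (by omega)).C_mul τ)).add ?_).sub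
        (ih _ (by omega) q (i + 2) l rfl (by omega) (by omega))).sub ?_)
      · refine HasDig.poly (n := n + 1) ?_ _ _ _ fun j hj =>
          ih _ (by omega) q _ _ rfl (by omega) (by omega)
        rw [Polynomial.natDegree_add_C]
        exact (ps_natDegree (n + 1)).2
      · exact HasDig.poly (low_deg n κ) _ _ _ fun j hj =>
          ih _ (by omega) q _ _ rfl (by omega) (by omega)

open Polynomial in
theorem cancel {N T : k[X]} (hN : N.coeff 0 ≠ 0) (m : ℕ) : ∀ {G h : k[X][X]},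
    Polynomial.C N ^ m * G = (Polynomial.C N * Polynomial.X ^ 2 - Polynomial.C T * Polynomial.X +
      Polynomial.C (Polynomial.X ^ 2)) * h →
    ∃ h', G = (Polynomial.C N * Polynomial.X ^ 2 - Polynomial.C T * Polynomial.X +
      Polynomial.C (Polynomial.X ^ 2)) * h' := by
  have hN0 : N ≠ 0 := fun h => hN (by rw [h, Polynomial.coeff_zero])
  have hco : IsCoprime N (Polynomial.X ^ 2) :=
    ((irreducible_X.coprime_iff_not_dvd.2 (by rwa [X_dvd_iff])).symm).pow_right
  induction m with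
  | zero => intro G h e; exact ⟨h, by simpa using e⟩
  | succ m ih =>
    intro G h e
    have hd : Polynomial.C N ∣ h := by
      rw [Polynomial.C_dvd_iff_dvd_coeff]
      intro j
      induction j using Nat.strong_induction_on with
      | _ j ihj =>
        have e1 : Polynomial.C (Polynomial.X ^ 2) * h = Polynomial.C N *
            (Polynomial.C N ^ m * G - Polynomial.X ^ 2 * h) + Polynomial.C T * (Polynomial.X * h) := by
          linear_combination -e
        have e2 := congrArg (fun p => Polynomial.coeff p j) e1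
        simp only [Polynomial.coeff_C_mul, Polynomial.coeff_add] at e2
        refine hco.dvd_of_dvd_mul_left ?_
        rw [e2]
        refine dvd_add (dvd_mul_right _ _) (Dvd.dvd.mul_left ?_ _)
        rcases j with _ | j
        · simp
        · rw [Polynomial.coeff_X_mul]
          exact ihj j (by omega)
    obtain ⟨h', rfl⟩ := hd
    refine ih (h := h') (mul_left_cancel₀ (Polynomial.C_ne_zero.2 hN0) ?_)
    linear_combination e

theorem la_quad [Infinite k] (n a b : ℕ) {A B : ℕ} (hA : 0 < A) (hB : 0 < B) :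
    LA k (box a b) (4 * (n + 2)) (2 * a + (n + 2) * b) (min (a / (n + 2)) (b / 2)) A B := by
  classical
  obtain ⟨κ, hκ⟩ := Infinite.exists_notMem_finset ({0, -(-1) ^ (n + 2)} : Finset k)
  simp only [Finset.mem_insert, Finset.mem_singleton, not_or] at hκ
  have h0 : κ ≠ 0 := hκ.1
  have h1 : (-1) ^ (n + 2) + κ ≠ 0 := fun h => hκ.2 (by linear_combination h)
  have hQ : ∀ q ≤ min (a / (n + 2)) (b / 2), (n + 2) * q ≤ a ∧ 2 * q ≤ b := fun q hq =>
    ⟨(Nat.mul_le_mul_left _ (hq.trans (min_le_left _ _))).trans (Nat.mul_div_le a (n + 2)),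
      by omega⟩
  refine la_of hA hB (by nlinarith [hQ _ le_rfl]) (hypQ n κ h0 h1).f
    (fun j : Fin (a + 1) × Fin (b + 1) => X 0 ^ (j.1 : ℕ) * X 1 ^ (j.2 : ℕ))
    (fun q => {j | ((j.1 : ℕ) < n + 2 ∨ (j.2 : ℕ) < 2) ∧ (n + 2) * q + j.1 ≤ a ∧ 2 * q + j.2 ≤ b})
    (fun τ δ hδ => ?_) (fun M => ?_)
  · rw [mem_box] at hδ
    have := dig_quad (h0 := h0) (h1 := h1) τ a b _ 0 (δ 0) (δ 1) rfl (by omega) (by omega)
    simpa using this
  obtain ⟨xy, g1, g2, g3⟩ := (hypQ n κ h0 h1).loc (M + (2 * a + (n + 2) * b) + 1)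
  refine ⟨xy, Ideal.pow_le_pow_right (by omega) g1, fun q hq => ?_⟩
  refine (hypQ n κ h0 h1).win (fun j : Fin (a + 1) × Fin (b + 1) => j.1) (fun j => j.2) _
    (L := b - 2 * q) (by omega) (fun j hj => by have := hj.2.2; omega) (fun j hj => ?_)
    (fun c hc m h e => ?_) g2 g3
  · obtain ⟨-, j1, j2⟩ := hj
    simp only [hypQ, Polynomial.natDegree_X_pow_add_C, Polynomial.natDegree_one]
    obtain ⟨w, hw⟩ := Nat.exists_eq_add_of_le j2
    have : b - 2 * q - j.2 = w := by omega
    rw [this]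
    apply Nat.le_sub_of_add_le
    have h5 : (n + 2) * b = (n + 2) * (2 * q + j.2 + w) := congrArg (fun z => (n + 2) * z) hw
    nlinarith
  · refine eq_zero_of_mon (i := fun j : Fin (a + 1) × Fin (b + 1) => j.1) (l := fun j => j.2)
      (fun j j' h1 h2 => Prod.ext (Fin.ext h1) (Fin.ext h2)) ?_
    set H := hypQ n κ h0 h1 with hH
    set g : MvPolynomial (Fin 2) k := ∑ j : Fin (a + 1) × Fin (b + 1),
      C (c j) * (X 0 ^ (j.1 : ℕ) * X 1 ^ (j.2 : ℕ)) with hg
    set Θ := Polynomial.Bivariate.equivMvPolynomial k with hΘ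
    have t0 : Θ.symm (X 0) = Polynomial.C Polynomial.X := by simp [hΘ]
    have t1 : Θ.symm (X 1) = Polynomial.X := by simp [hΘ]
    have t2 : ∀ p : Polynomial k, Θ.symm (inX p) = Polynomial.C p := fun p => by
      rw [inX, ← Polynomial.aeval_algHom_apply, t0, aeval_CX]
    have hN0 : H.N.coeff 0 ≠ 0 := by
      have := congrArg (Polynomial.eval 0) H.hN
      rw [Polynomial.coeff_zero_eq_eval_zero]
      simp only [Polynomial.eval_comp, Polynomial.eval_mul] at this
      simp only [Polynomial.eval_add, Polynomial.eval_pow, Polynomial.eval_X, ne_eq,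
        OfNat.ofNat_ne_zero, not_false_eq_true, zero_pow, add_zero, Polynomial.eval_sub,
        Polynomial.eval_neg, Polynomial.eval_one, sub_zero] at this
      rw [this]
      exact mul_ne_zero H.b0 H.b1
    have hE : H.E = 1 := rfl
    have e1 := congrArg Θ.symm e
    simp only [Hyp.f, map_mul, map_pow, map_add, map_sub, t0, t1, t2, hE, map_one, mul_one] at e1
    rw [← Polynomial.C_mul, ← Polynomial.C_pow (a := Polynomial.X)] at e1
    obtain ⟨h', e2⟩ := cancel hN0 m e1
    by_contra hne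
    have hG : Θ.symm g ≠ 0 := by simpa using hne
    set F := Polynomial.C H.N * Polynomial.X ^ 2 - Polynomial.C (Polynomial.X * H.T) * Polynomial.X +
      Polynomial.C (Polynomial.X ^ 2 : Polynomial k) with hF
    have hNne : H.N ≠ 0 := fun h => hN0 (by rw [h, Polynomial.coeff_zero])
    have hF2 : F.natDegree = 2 := by rw [hF]; compute_degree!
    have hF3 : F.leadingCoeff = H.N := by
      rw [Polynomial.leadingCoeff, hF2, hF, Polynomial.coeff_add, Polynomial.coeff_C,
        Polynomial.coeff_sub, Polynomial.coeff_C_mul, Polynomial.coeff_C_mul]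
      simp [Polynomial.coeff_X]
    have hNd : H.N.natDegree = n + 2 := by
      have d1 : ((-Polynomial.X : Polynomial k) ^ (n + 2)).natDegree = n + 2 := by simp
      have := Polynomial.natDegree_add_eq_left_of_natDegree_lt
        (p := (-Polynomial.X : Polynomial k) ^ (n + 2)) ((low_deg n κ).trans_lt (by omega))
      rwa [d1] at this
    have hh : h' ≠ 0 := by rintro rfl; exact hG (by rw [e2, mul_zero])
    have hF0 : F ≠ 0 := by rintro h; exact hG (by rw [e2, h, zero_mul])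
    have d2 : 2 ≤ (Θ.symm g).natDegree := by
      rw [e2, Polynomial.natDegree_mul hF0 hh]; omega
    have d3 : n + 2 ≤ (Θ.symm g).leadingCoeff.natDegree := by
      rw [e2, Polynomial.leadingCoeff_mul, hF3,
        Polynomial.natDegree_mul hNne (Polynomial.leadingCoeff_ne_zero.2 hh)]
      omega
    have d4 := Polynomial.leadingCoeff_ne_zero.2 (Polynomial.leadingCoeff_ne_zero.2 hG)
    rw [Polynomial.leadingCoeff] at d4
    generalize (Θ.symm g).leadingCoeff.natDegree = i at d3 d4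
    rw [Polynomial.leadingCoeff] at d4
    generalize (Θ.symm g).natDegree = l at d2 d4
    rw [hg, map_sum, Polynomial.finset_sum_coeff, Polynomial.finset_sum_coeff] at d4
    obtain ⟨j, -, hj⟩ := Finset.exists_ne_zero_of_sum_ne_zero d4
    have t3 : Θ.symm (C (c j)) = Polynomial.C (Polynomial.C (c j)) := by simp [hΘ]
    rw [map_mul, map_mul, map_pow, map_pow, t0, t1, t3, ← Polynomial.C_pow, ← mul_assoc,
      ← Polynomial.C_mul, Polynomial.coeff_C_mul, Polynomial.coeff_X_pow] at hj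
    by_cases hl : l = j.2
    · rw [if_pos hl, mul_one, Polynomial.coeff_C_mul, Polynomial.coeff_X_pow] at hj
      by_cases hi : i = j.1
      · refine left_ne_zero_of_mul hj (hc j fun hj' => ?_)
        have := hj'.1
        omega
      · rw [if_neg hi, mul_zero] at hj
        exact hj rfl
    · rw [if_neg hl, mul_zero, Polynomial.coeff_zero] at hj
      exact hj rfl

end Quadric

end Vale.Agent.N279
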