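import Vale.Agent.P279.H35.Univ

/-!
# Leading terms near a node, over any field

A curve has the local equation `f = ξ η + (high order)`.  A polynomial is written as
`∑ q, (f - τ) ^ q * block q`; the leading term at the point `ξ = x t ^ A`,
`η = x⁻¹ t ^ B (1 + z t ^ c)`, `τ = t ^ (A + B)` is `∑ q, lam q (x) * z ^ q` with the exponents of
`lam q` in a window of length `δ q`.
-/

set_option linter.all false

namespace Vale.Agent.N279

open MvPolynomial Vale.Agent.P279.H35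

universe u

variable {k : Type u} [Field k] {ι : Type} [Fintype ι]

/-- The block `∑ i, c i * h i` at the point. -/
noncomputable def blk {𝔅 : Type u} [CommRing 𝔅] [Algebra k 𝔅] (h : ι → MvPolynomial (Fin 2) k)
    (ev : MvPolynomial (Fin 2) k →ₐ[k] PowerSeries 𝔅) (c : ι → PowerSeries k) : PowerSeries 𝔅 :=
  ∑ i, PowerSeries.map (algebraMap k 𝔅) (c i) * ev (h i)

/-- The orders of vanishing on the two branches add up to at most `δ`. -/
def Win (h : ι → MvPolynomial (Fin 2) k) (I : Set ι) (δ : ℕ) : Prop :=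
  ∀ c : ι → k, (∀ i, i ∉ I → c i = 0) → (∃ i, c i ≠ 0) → ∃ α β : ℕ, α + β ≤ δ ∧
    coeff (Finsupp.single 0 α) (∑ i, C (c i) * h i) ≠ 0 ∧
    coeff (Finsupp.single 1 β) (∑ i, C (c i) * h i) ≠ 0

theorem coeff_blk {𝔅 : Type u} [CommRing 𝔅] [Algebra k 𝔅] (h : ι → MvPolynomial (Fin 2) k)
    (ev : MvPolynomial (Fin 2) k →ₐ[k] PowerSeries 𝔅) (c : ι → PowerSeries k) (e : ℕ) :
    PowerSeries.coeff e (blk h ev c) = ∑ i,
      ∑ a ∈ Finset.HasAntidiagonal.antidiagonal e, algebraMap k 𝔅 (PowerSeries.coeff a.1 (c i)) *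
        PowerSeries.coeff a.2 (ev (h i)) := by
  unfold blk
  rw [map_sum]
  refine Finset.sum_congr rfl fun i _ => ?_
  rw [PowerSeries.coeff_mul]
  refine Finset.sum_congr rfl fun a _ => ?_
  rw [PowerSeries.coeff_map]

theorem coeff_coeff_blk (A B : ℕ) (h : ι → MvPolynomial (Fin 2) k) (c : ι → PowerSeries k) (e : ℕ)
    (p : ℤ) :
    (PowerSeries.coeff e (blk h (ev0 A B (Tu k)) c)).coeff p =
      ∑ i, ∑ a ∈ Finset.HasAntidiagonal.antidiagonal e,
        PowerSeries.coeff a.1 (c i) * (PowerSeries.coeff a.2 (ev0 A B (Tu k) (h i))).coeff p := by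
  rw [coeff_blk, coeff_sum']
  refine Finset.sum_congr rfl fun i _ => ?_
  rw [coeff_sum']
  refine Finset.sum_congr rfl fun a _ => ?_
  rw [coeff_algebraMap_mul]

theorem supp_blk (A B : ℕ) (h : ι → MvPolynomial (Fin 2) k) (c : ι → PowerSeries k) (e : ℕ) (p : ℤ)
    (hne : (PowerSeries.coeff e (blk h (ev0 A B (Tu k)) c)).coeff p ≠ 0) :
    (A : ℤ) * p ≤ e ∧ -(B * p : ℤ) ≤ e := by
  rw [coeff_coeff_blk] at hne
  obtain ⟨i, _, hi⟩ := Finset.exists_ne_zero_of_sum_ne_zero hne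
  obtain ⟨a, ha, hal⟩ := Finset.exists_ne_zero_of_sum_ne_zero hi
  have h1 := supp_ev0 A B _ _ _ (right_ne_zero_of_mul hal)
  rw [Finset.HasAntidiagonal.mem_antidiagonal] at ha
  have h2 : (a.2 : ℤ) ≤ e := by exact_mod_cast (by omega : a.2 ≤ e)
  exact ⟨h1.1.trans h2, h1.2.trans h2⟩

theorem face_blk_pos (A B : ℕ) (hA : 0 < A) (h : ι → MvPolynomial (Fin 2) k)
    (c : ι → PowerSeries k) (p : ℕ) :
    (PowerSeries.coeff (A * p) (blk h (ev0 A B (Tu k)) c)).coeff (p : ℤ) =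
      coeff (Finsupp.single 0 p) (∑ i, C (PowerSeries.constantCoeff (c i)) * h i) := by
  rw [coeff_coeff_blk, coeff_sum]
  refine Finset.sum_congr rfl fun i _ => ?_
  rw [coeff_C_mul, Finset.sum_eq_single_of_mem (0, A * p) (by simp)]
  · rw [face_pos A B hA, PowerSeries.coeff_zero_eq_constantCoeff]
  · rintro ⟨u, v⟩ huv hne
    by_contra hcon
    have h2 := (supp_ev0 A B _ _ _ (right_ne_zero_of_mul hcon)).1
    rw [Finset.HasAntidiagonal.mem_antidiagonal] at huv
    simp only at huv h2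
    have h3 : A * p ≤ v := by exact_mod_cast h2
    apply hne
    ext
    · show u = 0; omega
    · show v = A * p; omega

theorem face_blk_neg (A B : ℕ) (hB : 0 < B) (h : ι → MvPolynomial (Fin 2) k)
    (c : ι → PowerSeries k) (p : ℕ) :
    (PowerSeries.coeff (B * p) (blk h (ev0 A B (Tu k)) c)).coeff (-(p : ℤ)) =
      coeff (Finsupp.single 1 p) (∑ i, C (PowerSeries.constantCoeff (c i)) * h i) := by
  rw [coeff_coeff_blk, coeff_sum]
  refine Finset.sum_congr rfl fun i _ => ?_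
  rw [coeff_C_mul, Finset.sum_eq_single_of_mem (0, B * p) (by simp)]
  · rw [face_neg A B hB, PowerSeries.coeff_zero_eq_constantCoeff]
  · rintro ⟨u, v⟩ huv hne
    by_contra hcon
    have h2 := (supp_ev0 A B _ _ _ (right_ne_zero_of_mul hcon)).2
    rw [Finset.HasAntidiagonal.mem_antidiagonal] at huv
    simp only at huv h2
    have h3 : B * p ≤ v := by
      have : ((B * p : ℕ) : ℤ) ≤ v := by push_cast; linarith
      exact_mod_cast this
    apply hne
    ext
    · show u = 0; omega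
    · show v = B * p; omega

/-- **The window theorem.** -/
theorem window {A B δ : ℕ} (hA : 0 < A) (hB : 0 < B) {h : ι → MvPolynomial (Fin 2) k} {I : Set ι}
    (hW : Win h I δ) (c : ι → PowerSeries k) (hc : ∀ i, i ∉ I → c i = 0)
    (hne : ∃ i, PowerSeries.constantCoeff (c i) ≠ 0) :
    ∃ V : ℕ, (∀ e < V, PowerSeries.coeff e (blk h (ev0 A B (Tu k)) c) = 0) ∧
      PowerSeries.coeff V (blk h (ev0 A B (Tu k)) c) ≠ 0 ∧
      (A + B) * V ≤ δ * A * B ∧
      ∀ p : ℤ, (PowerSeries.coeff V (blk h (ev0 A B (Tu k)) c)).coeff p ≠ 0 →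
        ((A : ℤ) + B) * p ≤ δ * B ∧ -(((A : ℤ) + B) * p) ≤ δ * A := by
  classical
  set f := blk h (ev0 A B (Tu k)) c with hf
  obtain ⟨α, β, hαβ, h0, h1⟩ := hW (fun i => PowerSeries.constantCoeff (c i))
    (fun i hi => by rw [hc i hi, map_zero]) hne
  have hpos : PowerSeries.coeff (A * α) f ≠ 0 := by
    intro hz
    apply h0
    rw [← face_blk_pos A B hA h c α, ← hf, hz]
    simp
  have hneg : PowerSeries.coeff (B * β) f ≠ 0 := by
    intro hz
    apply h1
    rw [← face_blk_neg A B hB h c β, ← hf, hz]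
    simp
  have hex : ∃ e, PowerSeries.coeff e f ≠ 0 := ⟨_, hpos⟩
  have hV1 : Nat.find hex ≤ A * α := Nat.find_min' hex hpos
  have hV2 : Nat.find hex ≤ B * β := Nat.find_min' hex hneg
  have hV3 : (A + B) * Nat.find hex ≤ δ * A * B := by
    calc (A + B) * Nat.find hex = A * Nat.find hex + B * Nat.find hex := by ring
      _ ≤ A * (B * β) + B * (A * α) := by gcongr
      _ = (α + β) * (A * B) := by ring
      _ ≤ δ * (A * B) := by gcongr
      _ = δ * A * B := by ring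
  refine ⟨Nat.find hex, fun e he => ?_, Nat.find_spec hex, hV3, fun p hp => ?_⟩
  · by_contra hcon
    exact Nat.find_min hex he hcon
  · obtain ⟨h1, h2⟩ := supp_blk A B h c _ p hp
    have h3 : ((A : ℤ) + B) * (Nat.find hex : ℤ) ≤ δ * A * B := by exact_mod_cast hV3
    have hA' : (0 : ℤ) < A := by exact_mod_cast hA
    have hB' : (0 : ℤ) < B := by exact_mod_cast hB
    have hAB : (0 : ℤ) < (A : ℤ) + B := by linarith
    constructor
    · have h4 : (A : ℤ) * (((A : ℤ) + B) * p) ≤ A * (δ * B) := by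
        calc (A : ℤ) * (((A : ℤ) + B) * p) = ((A : ℤ) + B) * (A * p) := by ring
          _ ≤ ((A : ℤ) + B) * (Nat.find hex : ℤ) := by gcongr
          _ ≤ δ * A * B := h3
          _ = A * (δ * B) := by ring
      exact le_of_mul_le_mul_left h4 hA'
    · have h4 : (B : ℤ) * (-(((A : ℤ) + B) * p)) ≤ B * (δ * A) := by
        calc (B : ℤ) * (-(((A : ℤ) + B) * p)) = ((A : ℤ) + B) * (-(B * p)) := by ring
          _ ≤ ((A : ℤ) + B) * (Nat.find hex : ℤ) := by gcongr
          _ ≤ δ * A * B := h3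
          _ = B * (δ * A) := by ring
      exact le_of_mul_le_mul_left h4 hB'

theorem coeff_blk_map {𝔅 : Type u} [CommRing 𝔅] [Algebra k 𝔅] (A B c : ℕ)
    (h : ι → MvPolynomial (Fin 2) k) (x : 𝔅ˣ) (z : 𝔅) (d : ι → PowerSeries k) {e : ℕ} (he : e < c) :
    PowerSeries.coeff e (blk h (ev1 A B c x z) d) = LaurentPolynomial.eval₂ (algebraMap k 𝔅) x
      (PowerSeries.coeff e (blk h (ev0 A B (Tu k)) d)) := by
  rw [coeff_blk, coeff_blk, map_sum]
  refine Finset.sum_congr rfl fun i _ => ?_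
  rw [map_sum]
  refine Finset.sum_congr rfl fun a ha => ?_
  rw [Finset.HasAntidiagonal.mem_antidiagonal] at ha
  rw [coeff_ev1 A B c x z _ (by omega : a.2 < c), coeff_ev0_map,
    (LaurentPolynomial.eval₂ (algebraMap k 𝔅) x).map_mul]
  congr 1
  rw [show algebraMap k (LaurentPolynomial k) (PowerSeries.coeff a.1 (d i)) =
    LaurentPolynomial.C (PowerSeries.coeff a.1 (d i)) from rfl, LaurentPolynomial.eval₂_C]

theorem exists_shift (d : ι → PowerSeries k) (hne : ∃ i, d i ≠ 0) :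
    ∃ (ν : ℕ) (d' : ι → PowerSeries k), (∀ i, d i = PowerSeries.X ^ ν * d' i) ∧
      (∀ i, d i = 0 → d' i = 0) ∧ ∃ i, PowerSeries.constantCoeff (d' i) ≠ 0 := by
  classical
  have hex : ∃ e, ∃ i, PowerSeries.coeff e (d i) ≠ 0 := by
    obtain ⟨i, h⟩ := hne
    by_contra hcon
    push Not at hcon
    apply h
    ext e
    rw [hcon e i]
    simp
  refine ⟨Nat.find hex, fun i => PowerSeries.mk fun e => PowerSeries.coeff (e + Nat.find hex) (d i),
    ?_, ?_, ?_⟩
  · intro i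
    ext e
    rw [PowerSeries.coeff_X_pow_mul']
    split_ifs with h1
    · rw [PowerSeries.coeff_mk]
      congr 2
      omega
    · by_contra h2
      exact Nat.find_min hex (not_le.mp h1) ⟨i, h2⟩
  · intro i h
    ext e
    rw [PowerSeries.coeff_mk, h]
    simp
  · obtain ⟨i, h⟩ := Nat.find_spec hex
    refine ⟨i, ?_⟩
    rw [← PowerSeries.coeff_zero_eq_constantCoeff_apply, PowerSeries.coeff_mk, zero_add]
    exact h

/-- One block. -/
theorem exists_lead {A B c δ : ℕ} (hA : 0 < A) (hB : 0 < B) (hc : δ * A * B < (A + B) * c)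
    {h : ι → MvPolynomial (Fin 2) k} {I : Set ι} (hW : Win h I δ)
    (d : ι → PowerSeries k) (hd : ∀ i, i ∉ I → d i = 0) (hne : ∃ i, d i ≠ 0) :
    ∃ (o : ℕ) (lam : LaurentPolynomial k), lam ≠ 0 ∧
      (∀ p : ℤ, lam.coeff p ≠ 0 → ((A : ℤ) + B) * p ≤ δ * B ∧ -(((A : ℤ) + B) * p) ≤ δ * A) ∧
      ∀ (𝔅 : Type u) [CommRing 𝔅] [Algebra k 𝔅] (x : 𝔅ˣ) (z : 𝔅),
        Lead (blk h (ev1 A B c x z) d) o (LaurentPolynomial.eval₂ (algebraMap k 𝔅) x lam) := by
  obtain ⟨ν, d', h1, h2, h3⟩ := exists_shift d hne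
  obtain ⟨V, hV1, hV2, hV3, hV4⟩ := window hA hB hW d' (fun i hi => h2 i (hd i hi)) h3
  refine ⟨ν + V, _, hV2, hV4, ?_⟩
  intro 𝔅 _ _ x z
  have hVc : V < c := by
    have : (A + B) * V < (A + B) * c := hV3.trans_lt hc
    exact lt_of_mul_lt_mul_left this (Nat.zero_le _)
  have hblk : blk h (ev1 A B c x z) d = PowerSeries.X ^ ν * blk h (ev1 A B c x z) d' := by
    unfold blk
    rw [Finset.mul_sum]
    refine Finset.sum_congr rfl fun i _ => ?_
    rw [h1 i, map_mul, map_pow, PowerSeries.map_X]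
    ring
  rw [hblk]
  apply Lead.X_pow_mul
  apply Lead.of_coeff
  · intro e he
    rw [coeff_blk_map A B c h x z d' (he.trans hVc), hV1 e he, map_zero]
  · rw [coeff_blk_map A B c h x z d' hVc]

theorem X_pow_dvd_ev1 {𝔅 : Type u} [CommRing 𝔅] [Algebra k 𝔅] {A B c : ℕ} (hA : 0 < A)
    (hB : 0 < B) (x : 𝔅ˣ) (z : 𝔅) {M : ℕ} {R : MvPolynomial (Fin 2) k}
    (hR : R ∈ idealOfVars (Fin 2) k ^ M) : PowerSeries.X ^ M ∣ ev1 A B c x z R := by
  have h1 : Ideal.map (ev1 A B c x z : MvPolynomial (Fin 2) k →ₐ[k] PowerSeries 𝔅)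
      (idealOfVars (Fin 2) k) ≤ Ideal.span {PowerSeries.X} := by
    rw [idealOfVars, Ideal.map_span, Ideal.span_le]
    rintro _ ⟨_, ⟨i, rfl⟩, rfl⟩
    rw [SetLike.mem_coe, Ideal.mem_span_singleton]
    obtain ⟨A', rfl⟩ := Nat.exists_eq_succ_of_ne_zero hA.ne'
    obtain ⟨B', rfl⟩ := Nat.exists_eq_succ_of_ne_zero hB.ne'
    fin_cases i
    · simp only [ev1, xi, Fin.zero_eta, aeval_X, Matrix.cons_val_zero]
      exact Dvd.dvd.mul_left (dvd_pow_self _ (Nat.succ_ne_zero _)) _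
    · simp only [ev1, eta, eta0, Fin.mk_one, aeval_X, Matrix.cons_val_one, Matrix.cons_val_zero]
      exact Dvd.dvd.mul_right (Dvd.dvd.mul_left (dvd_pow_self _ (Nat.succ_ne_zero _)) _) _
  have h2 := Ideal.mem_map_of_mem (ev1 A B c x z : MvPolynomial (Fin 2) k →ₐ[k] PowerSeries 𝔅) hR
  rw [Ideal.map_pow] at h2
  have h3 := Ideal.pow_right_mono h1 M h2
  rwa [Ideal.span_singleton_pow, Ideal.mem_span_singleton] at h3

theorem lead_curve {𝔅 : Type u} [CommRing 𝔅] [Algebra k 𝔅] {A B c : ℕ} (hA : 0 < A) (hB : 0 < B)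
    {f : MvPolynomial (Fin 2) k} (hf : f - X 0 * X 1 ∈ idealOfVars (Fin 2) k ^ (A + B + c + 1))
    (x : 𝔅ˣ) (z : 𝔅) :
    Lead (ev1 A B c x z f - PowerSeries.X ^ (A + B)) (A + B + c) z := by
  obtain ⟨κ, hκ⟩ := X_pow_dvd_ev1 (c := c) hA hB x z hf
  have h3 : xi A x * eta B c x z = PowerSeries.X ^ (A + B) *
      (1 + PowerSeries.X ^ c * PowerSeries.C z) := by
    unfold xi eta eta0
    have : (PowerSeries.C (x : 𝔅)) * PowerSeries.C ((x⁻¹ : 𝔅ˣ) : 𝔅) = 1 := by
      rw [← map_mul]; simp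
    rw [pow_add]
    linear_combination (PowerSeries.X ^ A * PowerSeries.X ^ B *
      (1 + PowerSeries.X ^ c * PowerSeries.C z)) * this
  have h4 : ev1 A B c x z (X 0 * X 1 : MvPolynomial (Fin 2) k) = xi A x * eta B c x z := by
    unfold ev1
    simp
  rw [map_sub, h4, h3] at hκ
  refine ⟨κ, ?_⟩
  have h5 : ev1 A B c x z f = PowerSeries.X ^ (A + B) *
      (1 + PowerSeries.X ^ c * PowerSeries.C z) + PowerSeries.X ^ (A + B + c + 1) * κ := by
    rw [← hκ]; ring
  rw [h5, pow_add PowerSeries.X (A + B + c) 1, pow_add PowerSeries.X (A + B) c]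
  ring

/-- **The leading term.** -/
theorem la_abs {A B c Q : ℕ} (hA : 0 < A) (hB : 0 < B) {h : ι → MvPolynomial (Fin 2) k}
    {f : MvPolynomial (Fin 2) k} (hf : f - X 0 * X 1 ∈ idealOfVars (Fin 2) k ^ (A + B + c + 1))
    (I : ℕ → Set ι) (δ : ℕ → ℕ) (hW : ∀ q ≤ Q, Win h (I q) (δ q))
    (hc : ∀ q ≤ Q, δ q * A * B < (A + B) * c)
    (d : ℕ → ι → PowerSeries k) (hd : ∀ q i, i ∉ I q → d q i = 0) (hne : ∃ q ≤ Q, ∃ i, d q i ≠ 0) :
    ∃ (e : ℕ) (lam : ℕ → LaurentPolynomial k), (∃ q ≤ Q, lam q ≠ 0) ∧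
      (∀ q ≤ Q, ∀ p : ℤ, (lam q).coeff p ≠ 0 →
        ((A : ℤ) + B) * p ≤ δ q * B ∧ -(((A : ℤ) + B) * p) ≤ δ q * A) ∧
      ∀ (𝔅 : Type u) [CommRing 𝔅] [Algebra k 𝔅] (x : 𝔅ˣ) (z : 𝔅),
        PowerSeries.coeff e (∑ q ∈ Finset.range (Q + 1),
          (ev1 A B c x z f - PowerSeries.X ^ (A + B)) ^ q * blk h (ev1 A B c x z) (d q)) =
          ∑ q ∈ Finset.range (Q + 1), LaurentPolynomial.eval₂ (algebraMap k 𝔅) x (lam q) * z ^ q := by
  classical
  have hq : ∀ q : ℕ, ∃ (o : ℕ) (lam : LaurentPolynomial k),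
      (q ≤ Q → (lam = 0 → ∀ i, d q i = 0) ∧
      (∀ p : ℤ, lam.coeff p ≠ 0 →
        ((A : ℤ) + B) * p ≤ δ q * B ∧ -(((A : ℤ) + B) * p) ≤ δ q * A) ∧
      ∀ (𝔅 : Type u) [CommRing 𝔅] [Algebra k 𝔅] (x : 𝔅ˣ) (z : 𝔅),
        Lead (blk h (ev1 A B c x z) (d q)) o
          (LaurentPolynomial.eval₂ (algebraMap k 𝔅) x lam)) := by
    intro q
    by_cases hqb : q ≤ Q
    · by_cases hz : ∃ i, d q i ≠ 0
      · obtain ⟨o, lam, h1, h2, h3⟩ := exists_lead hA hB (hc q hqb) (hW q hqb) (d q) (hd q) hz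
        exact ⟨o, lam, fun _ => ⟨fun h4 => absurd h4 h1, h2, h3⟩⟩
      · push Not at hz
        refine ⟨0, 0, fun _ => ⟨fun _ => hz, fun p hp => absurd (by simp) hp, ?_⟩⟩
        intro 𝔅 _ _ x z
        have : blk h (ev1 A B c x z) (d q) = 0 := by
          unfold blk
          apply Finset.sum_eq_zero
          intro i _
          rw [hz i, map_zero, zero_mul]
        rw [this, map_zero]
        exact Lead.zero 0
    · exact ⟨0, 0, fun h => absurd h hqb⟩
  choose o lam hlam using hq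
  have hex : ∃ q ≤ Q, lam q ≠ 0 := by
    obtain ⟨q, hq, i, hi⟩ := hne
    exact ⟨q, hq, fun h0 => hi ((hlam q hq).1 h0 i)⟩
  set J := (Finset.range (Q + 1)).filter fun q => lam q ≠ 0 with hJ
  have hJne : J.Nonempty := by
    obtain ⟨q, hq, hq'⟩ := hex
    exact ⟨q, by rw [hJ, Finset.mem_filter, Finset.mem_range]; exact ⟨by omega, hq'⟩⟩
  obtain ⟨q₀, hq₀, hmin⟩ := Finset.exists_min_image J (fun q => q * (A + B + c) + o q) hJne
  set e := q₀ * (A + B + c) + o q₀ with he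
  rw [hJ, Finset.mem_filter, Finset.mem_range] at hq₀
  refine ⟨e, fun q => if q * (A + B + c) + o q = e then lam q else 0, ?_, ?_, ?_⟩
  · exact ⟨q₀, by omega, by simp only [he, if_true]; exact hq₀.2⟩
  · intro q hq p hp
    beta_reduce at hp
    split_ifs at hp with h1
    · exact (hlam q hq).2.1 p hp
    · exact absurd (by simp) hp
  · intro 𝔅 _ _ x z
    apply Lead.coeff_eq
    apply Lead.sum
    intro q hq
    rw [Finset.mem_range] at hq
    by_cases h1 : lam q = 0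
    · have : blk h (ev1 A B c x z) (d q) = 0 := by
        unfold blk
        apply Finset.sum_eq_zero
        intro i _
        rw [(hlam q (by omega)).1 h1 i, map_zero, zero_mul]
      beta_reduce
      rw [this, mul_zero, h1, ite_self, map_zero, zero_mul]
      exact Lead.zero e
    · have h2 := ((lead_curve hA hB hf x z).pow q).mul ((hlam q (by omega)).2.2 𝔅 x z)
      have h3 := h2.lower (hmin q (by
        rw [hJ, Finset.mem_filter, Finset.mem_range]; exact ⟨hq, h1⟩))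
      convert h3 using 1
      by_cases h4 : q * (A + B + c) + o q = e
      · simp only [h4, if_true]
        rw [mul_comm]
      · simp only [h4, if_false]
        rw [map_zero, zero_mul]

end Vale.Agent.N279
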