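import Vale.Agent.N279.Inst
import Vale.Agent.N279.Defs

/-!
# The inequalities for generic points over any field, and their sharpness
-/

set_option linter.all false

namespace Vale.Agent.N279

open Vale.Agent.P279 MvPolynomial

theorem multGE_iff_ker {K : Type*} [Field K] (q : Fin 2 → K) (m : ℕ) (P : MvPolynomial (Fin 2) K) :
    MultGE q m P ↔ P ∈ RingHom.ker (eval q) ^ m := by
  let e : MvPolynomial (Fin 2) K ≃+* MvPolynomial (Fin 2) K :=
    RingEquiv.ofBijective (shift q).toRingHom ⟨shift_injective q, fun P => ⟨shift (-q) P, by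
      have := shift_neg_shift (-q) P
      rwa [neg_neg] at this⟩⟩
  have h1 : ∀ P, eval q P = constantCoeff (shift q P) := by
    intro P
    induction P using MvPolynomial.induction_on with
    | C a => simp [shift]
    | add p q hp hq => simp only [map_add, hp, hq]
    | mul_X p n hp => simp only [map_mul, shift_X, hp]; simp
  have h2 : RingHom.ker (eval q) = (idealOfVars (Fin 2) K).comap e := by
    ext P
    rw [RingHom.mem_ker, Ideal.mem_comap, h1, ← pow_one (idealOfVars (Fin 2) K),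
      mem_pow_idealOfVars_iff']
    constructor
    · intro h δ hδ
      have : δ = 0 := (Finsupp.degree_eq_zero_iff δ).1 (by omega)
      rw [this]
      exact h
    · intro h
      exact h 0 (by simp)
  rw [multGE_iff, h2, ← Ideal.map_symm, ← Ideal.map_pow, Ideal.map_symm, Ideal.mem_comap]
  rfl

/-- The general inequality from a leading term statement. -/
theorem ineq_of {F K : Type*} [Field F] [Field K] [Algebra F K] {r : ℕ} {q : Fin r → Fin 2 → K}
    (hq : AlgebraicIndependent F fun x : Fin r × Fin 2 => q x.1 x.2) {S : Finset (Fin 2 →₀ ℕ)}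
    {s D Q : ℕ} (hLA : ∀ A B : ℕ, 0 < A → 0 < B → LA (AlgebraicClosure F) S s D Q A B)
    (hQ : s * Q ≤ D) (hD : 1 ≤ D) (hs : 2 ≤ s) (hr : s < r) {G : Finset (Fin r)} (hG : G.card < s)
    {m : Fin r → ℕ} (h : Ex S m q) : wsum s G m < D := by
  by_contra hcon
  push Not at hcon
  have hc : G.card + Gᶜ.card = r := by simpa using Finset.card_add_card_compl G
  obtain ⟨w, hw⟩ := core hLA hQ hD hs G hG (by simpa using hr) m (by
    rcases le_or_gt ((D : ℤ) - ∑ a ∈ G, (m a : ℤ)) 0 with h0 | h0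
    · exact Or.inl h0
    right
    have h0' : (0 : ℝ) < (D : ℝ) - ∑ a ∈ G, (m a : ℝ) := by exact_mod_cast h0
    have hg : (r : ℝ) - G.card = Gᶜ.card := by
      have := congrArg (Nat.cast (R := ℝ)) hc
      push_cast at this
      linarith
    have hg0 : (0 : ℝ) < Gᶜ.card := by exact_mod_cast (by omega : 0 < Gᶜ.card)
    have hn0 : (0 : ℝ) ≤ (s : ℝ) - G.card := sub_nonneg.2 (by exact_mod_cast hG.le)
    unfold wsum at hcon
    rw [hg] at hcon
    have h1 := pow_le_pow_left₀ h0'.le (sub_le_iff_le_add'.2 hcon) 2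
    rw [mul_pow, Real.sq_sqrt (div_nonneg hn0 hg0.le), div_mul_eq_mul_div, le_div_iff₀ hg0,
      mul_comm] at h1
    exact_mod_cast h1)
  exact hw (transfer ((algebraMap _ (PowerSeries (AlgebraicClosure F))).comp
    (algebraMap F (AlgebraicClosure F))) hq h w)

theorem plane {F K : Type*} [Field F] [Field K] [Algebra F K] {r : ℕ} {q : Fin r → Fin 2 → K}
    (hq : AlgebraicIndependent F fun x : Fin r × Fin 2 => q x.1 x.2) {d e : ℕ} (hd : 1 ≤ d)
    (he : 3 ≤ e) (hr : e ^ 2 < r) {G : Finset (Fin r)} (hG : G.card < e ^ 2) {m : Fin r → ℕ}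
    (h : Ex (tri d) m q) : wsum (e ^ 2) G m < e * d := by
  obtain ⟨n, rfl⟩ := Nat.exists_eq_add_of_le' he
  have := ineq_of hq (fun A B hA hB => la_plane n d hA hB)
    (by rw [pow_two, mul_assoc]; exact Nat.mul_le_mul_left _ (Nat.mul_div_le d (n + 3)))
    (Nat.mul_pos (by omega) hd) (by nlinarith) hr hG h
  exact_mod_cast this

theorem quad {F K : Type*} [Field F] [Field K] [Algebra F K] {r : ℕ} {q : Fin r → Fin 2 → K}
    (hq : AlgebraicIndependent F fun x : Fin r × Fin 2 => q x.1 x.2) {a b c : ℕ} (hd : 1 ≤ a + b)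
    (hc : 2 ≤ c) (hr : 4 * c < r) {G : Finset (Fin r)} (hG : G.card < 4 * c) {m : Fin r → ℕ}
    (h : Ex (box a b) m q) : wsum (4 * c) G m < 2 * a + c * b := by
  obtain ⟨n, rfl⟩ := Nat.exists_eq_add_of_le' hc
  have h1 : (n + 2) * min (a / (n + 2)) (b / 2) ≤ a :=
    (Nat.mul_le_mul_left _ (min_le_left _ _)).trans (Nat.mul_div_le a (n + 2))
  have h2 : 2 * min (a / (n + 2)) (b / 2) ≤ b := by omega
  have := ineq_of hq (fun A B hA hB => la_quad n a b hA hB) (by nlinarith) (by nlinarith)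
    (by omega) hr hG h
  exact_mod_cast this

theorem nagata_of {r d : ℕ} (hr : 10 ≤ r) {m : Fin r → ℕ} (h : wsum (3 ^ 2) ∅ m < (3 : ℕ) * d) :
    ∑ i, (m i : ℝ) < d * √(r : ℝ) := by
  have hr0 : (0 : ℝ) < r := by exact_mod_cast (by omega : 0 < r)
  have h9 : √(((3 ^ 2 : ℕ) : ℝ)) = 3 := by
    rw [Nat.cast_pow, Real.sqrt_sq (by positivity)]; norm_num
  simp only [wsum, Finset.sum_empty, Finset.card_empty, Nat.cast_zero, sub_zero, zero_add,
    Finset.compl_empty] at h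
  rw [Real.sqrt_div (by positivity), h9, div_mul_eq_mul_div, div_lt_iff₀ (Real.sqrt_pos.2 hr0)] at h
  push_cast at h
  linarith

theorem ex_tri {K : Type*} [Field K] {ι : Type} {q : ι → Fin 2 → K} {m : ι → ℕ}
    {P : MvPolynomial (Fin 2) K} (hd : 1 ≤ P.totalDegree)
    (hm : ∀ i, P ∈ RingHom.ker (eval (q i)) ^ m i) : Ex (tri P.totalDegree) m q := by
  refine ⟨P, ?_, fun δ hδ => ?_, fun i => (multGE_iff_ker _ _ _).2 (hm i)⟩
  · rintro rfl
    simp at hd
  · have h1 := le_totalDegree hδ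
    rwa [Finsupp.sum_fintype _ _ (fun _ => rfl), Fin.sum_univ_two, ← mem_tri] at h1

theorem ex_box {K : Type*} [Field K] {ι : Type} {q : ι → Fin 2 → K} {m : ι → ℕ}
    {P : MvPolynomial (Fin 2) K} (hd : 1 ≤ P.totalDegree)
    (hm : ∀ i, P ∈ RingHom.ker (eval (q i)) ^ m i) :
    1 ≤ P.degreeOf 0 + P.degreeOf 1 ∧ Ex (box (P.degreeOf 0) (P.degreeOf 1)) m q := by
  refine ⟨hd.trans (Finset.sup_le fun δ hδ => ?_), P, ?_, fun δ hδ => ?_,
    fun i => (multGE_iff_ker _ _ _).2 (hm i)⟩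
  · rw [Finsupp.sum_fintype _ _ (fun _ => rfl), Fin.sum_univ_two]
    exact add_le_add (monomial_le_degreeOf 0 hδ) (monomial_le_degreeOf 1 hδ)
  · rintro rfl
    simp at hd
  · exact mem_box.2 ⟨monomial_le_degreeOf 0 hδ, monomial_le_degreeOf 1 hδ⟩

/-- Nagata's inequality over `ℂ` for very general points, with the weights. -/
theorem complex {r : ℕ} : VeryGenerally r fun p =>
    ∀ (d : ℕ) (F : MvPolynomial (Fin 3) ℂ), 1 ≤ d → F.IsHomogeneous d → F ≠ 0 →
      ∀ m : Fin r → ℕ, (∀ i, MultAtLeast F (p i) (m i)) →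
        ∀ (e : ℕ) (G : Finset (Fin r)), 3 ≤ e → e ^ 2 < r → G.card < e ^ 2 →
          wsum (e ^ 2) G m < e * d := by
  refine veryGenerally_of_algInd r _ ?_
  intro p _ hp2 hai d F hd hF h0 m hm e G he hr hG
  exact plane (q := fun i k => (p i).rep k.castSucc / (p i).rep 2) hai hd he hr hG
    ⟨dehom F, dehom_ne_zero hF h0, fun δ hδ => mem_tri.2 (inV_dehom hF δ hδ).1,
      fun i => multGE_dehom hF (p i).rep (hp2 i) (m i) (hm i)⟩

/-! ### Sharpness -/

theorem card_rows (m : ℕ) : 2 * Fintype.card (Gen.RowsAt m) = m * (m + 1) := by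
  have h1 : Fintype.card (Gen.RowsAt m) = Fintype.card (Bez.bset m m) :=
    Fintype.card_congr (Equiv.setCongr (by
      ext δ
      simp only [Gen.RowsAt, Bez.bset, Set.mem_setOf_eq]
      omega))
  have h2 := Bez.card_bset m m le_rfl
  rw [h1]
  zify
  rw [h2]
  ring

theorem ex_of_count {K : Type*} [Field K] {ι : Type} [Fintype ι] (q : ι → Fin 2 → K)
    {S : Finset (Fin 2 →₀ ℕ)} {m : ι → ℕ} (h : ∑ i, m i * (m i + 1) < 2 * S.card) : Ex S m q := by
  classical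
  rw [ex_iff, ker_iff]
  intro hli
  have h1 := hli.fintype_card_le_finrank
  rw [Module.finrank_fintype_fun_eq_card, Fintype.card_sigma, Fintype.card_coe] at h1
  simp only [← card_rows, ← Finset.mul_sum] at h
  omega

theorem card_tri (d : ℕ) : d ^ 2 < 2 * (tri d).card := by
  have h1 : (tri d).card = Fintype.card (Gen.RowsAt (d + 1)) := by
    rw [← Fintype.card_coe]
    exact Fintype.card_congr (Equiv.subtypeEquivRight fun δ => by
      rw [mem_tri]
      simp only [Gen.RowsAt, Set.mem_setOf_eq]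
      omega)
  rw [h1, card_rows]
  nlinarith

theorem card_box (a b : ℕ) : a * b < (box a b).card := by
  have h1 : (Finset.range (a + 1) ×ˢ Finset.range (b + 1)).card ≤ (box a b).card := by
    refine Finset.card_le_card_of_injOn (fun p => Finsupp.single 0 p.1 + Finsupp.single 1 p.2)
      (fun p hp => ?_) (fun p _ p' _ h => ?_)
    · simp only [Finset.coe_product, Finset.coe_range, Set.mem_prod, Set.mem_Iio] at hp
      simp only [Finset.mem_coe, mem_box]
      simp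
      omega
    · have h0 := congrArg (fun δ : Fin 2 →₀ ℕ => δ 0) h
      have h1 := congrArg (fun δ : Fin 2 →₀ ℕ => δ 1) h
      simp at h0 h1
      exact Prod.ext h0 h1
  rw [Finset.card_product, Finset.card_range, Finset.card_range] at h1
  nlinarith

/-- Multiplicities close to the extremal ray. -/
theorem exists_mult {r s : ℕ} (hr : s < r) {G : Finset (Fin r)} (hG : G.card < s) {ε : ℝ}
    (hε : 0 < ε) : ∃ (b : ℕ) (m : Fin r → ℕ), (∃ i, 1 ≤ m i) ∧
      ∑ i, m i * (m i + 1) ≤ s * b ^ 2 ∧ (s : ℝ) * b < (1 + ε) * wsum s G m := by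
  classical
  have hc : G.card + Gᶜ.card = r := by simpa using Finset.card_add_card_compl G
  have hg : (r : ℝ) - G.card = Gᶜ.card := by
      have := congrArg (Nat.cast (R := ℝ)) hc
      push_cast at this
      linarith
  have hg0 : (0 : ℝ) < Gᶜ.card := by exact_mod_cast (by omega : 0 < Gᶜ.card)
  have hn0 : (0 : ℝ) < (s : ℝ) - G.card := sub_pos.2 (by exact_mod_cast hG)
  set w := √(((s : ℝ) - G.card) / ((r : ℝ) - G.card)) with hw
  have hw0 : 0 < w := Real.sqrt_pos.2 (by rw [hg]; positivity)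
  have hw2 : Gᶜ.card * w ^ 2 = (s : ℝ) - G.card := by
    rw [hw, Real.sq_sqrt (by rw [hg]; positivity), hg]
    field_simp
  have hs0 : (0 : ℝ) < s := by exact_mod_cast (by omega : 0 < s)
  obtain ⟨b, hb⟩ := exists_nat_gt (max (2 / w) ((1 + ε) * (G.card + 2 * w * Gᶜ.card) / (ε * s)))
  have hb1 : 2 < w * (b + 1 : ℕ) := by
    have := (div_lt_iff₀ hw0).1 ((le_max_left _ _).trans_lt hb)
    push_cast
    nlinarith
  have hb2 : (1 + ε) * (G.card + 2 * w * Gᶜ.card) < ε * s * (b + 1 : ℕ) := by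
    have := (div_lt_iff₀ (by positivity)).1 ((le_max_right _ _).trans_lt hb)
    push_cast
    nlinarith [mul_pos hε hs0]
  obtain ⟨μ, hμ⟩ : ∃ μ, ⌊w * (b + 1 : ℕ)⌋₊ = μ + 2 :=
    Nat.exists_eq_add_of_le' (Nat.le_floor (by exact_mod_cast hb1.le))
  have f1 : ((μ + 2 : ℕ) : ℝ) ≤ w * (b + 1 : ℕ) := hμ ▸ Nat.floor_le (by positivity)
  have f2 : w * (b + 1 : ℕ) < ((μ + 2 : ℕ) : ℝ) + 1 := hμ ▸ Nat.lt_floor_add_one _
  set m : Fin r → ℕ := fun i => if i ∈ G then b else μ + 1 with hm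
  have s1 : ∀ f : ℕ → ℝ, ∑ i ∈ G, f (m i) = G.card * f b := fun f => by
    rw [Finset.sum_congr rfl (g := fun _ => f b) fun i hi => by simp [hm, hi]]
    simp
  have s2 : ∀ f : ℕ → ℝ, ∑ i ∈ Gᶜ, f (m i) = Gᶜ.card * f (μ + 1) := fun f => by
    rw [Finset.sum_congr rfl (g := fun _ => f (μ + 1)) fun i hi => by
      simp [hm, Finset.mem_compl.1 hi]]
    simp
  refine ⟨b + 1, m, ?_, ?_, ?_⟩
  · obtain ⟨i, hi⟩ := Finset.card_pos.1 (by omega : 0 < Gᶜ.card)
    exact ⟨i, by simp [hm, Finset.mem_compl.1 hi]⟩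
  · have h1 : ∑ i, (m i : ℝ) * (m i + 1) ≤ s * ((b + 1 : ℕ) : ℝ) ^ 2 := by
      rw [← Finset.sum_add_sum_compl G, s1 fun x => (x : ℝ) * (x + 1), s2 fun x => (x : ℝ) * (x + 1)]
      have h2 : ((μ + 1 : ℕ) : ℝ) * ((μ + 1 : ℕ) + 1) ≤ (w * (b + 1 : ℕ)) ^ 2 := by
        refine le_trans ?_ (pow_le_pow_left₀ (by positivity) f1 2)
        push_cast
        nlinarith [Nat.cast_nonneg (α := ℝ) μ]
      have h3 : (b : ℝ) * (b + 1) ≤ ((b + 1 : ℕ) : ℝ) ^ 2 := by
        push_cast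
        nlinarith [Nat.cast_nonneg (α := ℝ) b]
      calc _ ≤ G.card * ((b + 1 : ℕ) : ℝ) ^ 2 + Gᶜ.card * (w * (b + 1 : ℕ)) ^ 2 := by gcongr
        _ = _ := by rw [mul_pow, ← mul_assoc, hw2]; ring
    exact_mod_cast h1
  · unfold wsum
    rw [← hw, s1 fun x => (x : ℝ), s2 fun x => (x : ℝ)]
    have h1 : w * (Gᶜ.card * (w * (b + 1 : ℕ) - 2)) ≤ w * (Gᶜ.card * ((μ + 1 : ℕ) : ℝ)) := by
      gcongr
      push_cast at f2 ⊢
      linarith
    have h2 : w * (Gᶜ.card * (w * (b + 1 : ℕ) - 2)) =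
        ((s : ℝ) - G.card) * (b + 1 : ℕ) - 2 * w * Gᶜ.card := by
      rw [← hw2]; ring
    have h3 : (1 + ε) * (s * (b + 1 : ℕ) - (G.card + 2 * w * Gᶜ.card)) ≤
        (1 + ε) * (G.card * (b : ℝ) + w * (Gᶜ.card * ((μ + 1 : ℕ) : ℝ))) := by
      gcongr
      rw [h2] at h1
      push_cast at h1 ⊢
      linarith
    linarith

theorem of_ex {K : Type*} [Field K] {ι : Type} {q : ι → Fin 2 → K} {m : ι → ℕ}
    {S : Finset (Fin 2 →₀ ℕ)} (h : Ex S m q) (hm : ∃ i, 1 ≤ m i) :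
    ∃ P : MvPolynomial (Fin 2) K, 1 ≤ P.totalDegree ∧
      (∀ i, P ∈ RingHom.ker (eval (q i)) ^ m i) ∧ P.support ⊆ S := by
  obtain ⟨P, h0, hS, hP⟩ := h
  obtain ⟨i, hi⟩ := hm
  exact ⟨P, hi.trans (((multGE_iff_le_ordAt _ _ h0).1 (hP i)).trans (ordAt_le_totalDegree _ h0)),
    fun i => (multGE_iff_ker _ _ _).1 (hP i), hS⟩

theorem sharp_plane {K : Type*} [Field K] {r : ℕ} (q : Fin r → Fin 2 → K) {e : ℕ}
    (hr : e ^ 2 < r) {G : Finset (Fin r)} (hG : G.card < e ^ 2) {ε : ℝ} (hε : 0 < ε) :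
    ∃ (P : MvPolynomial (Fin 2) K) (m : Fin r → ℕ), 1 ≤ P.totalDegree ∧
      (∀ i, P ∈ RingHom.ker (eval (q i)) ^ m i) ∧
      (e : ℝ) * P.totalDegree < (1 + ε) * wsum (e ^ 2) G m := by
  obtain ⟨b, m, h1, h2, h3⟩ := exists_mult hr hG hε
  obtain ⟨P, g1, g2, g3⟩ := of_ex (ex_of_count q (S := tri (e * b))
    (h2.trans_lt (by rw [← mul_pow]; exact card_tri _))) h1
  refine ⟨P, m, g1, g2, lt_of_le_of_lt ?_ h3⟩
  have : P.totalDegree ≤ e * b := Finset.sup_le fun δ hδ => by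
    rw [Finsupp.sum_fintype _ _ (fun _ => rfl), Fin.sum_univ_two]
    exact mem_tri.1 (g3 hδ)
  have h4 : e * P.totalDegree ≤ e ^ 2 * b := by rw [pow_two, mul_assoc]; gcongr
  exact_mod_cast h4

theorem sharp_quad {K : Type*} [Field K] {r : ℕ} (q : Fin r → Fin 2 → K) {c : ℕ}
    (hr : 4 * c < r) {G : Finset (Fin r)} (hG : G.card < 4 * c) {ε : ℝ} (hε : 0 < ε) :
    ∃ (P : MvPolynomial (Fin 2) K) (m : Fin r → ℕ), 1 ≤ P.totalDegree ∧
      (∀ i, P ∈ RingHom.ker (eval (q i)) ^ m i) ∧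
      (2 : ℝ) * P.degreeOf 0 + c * P.degreeOf 1 < (1 + ε) * wsum (4 * c) G m := by
  obtain ⟨b, m, h1, h2, h3⟩ := exists_mult hr hG hε
  obtain ⟨P, g1, g2, g3⟩ := of_ex (ex_of_count q (S := box (c * b) (2 * b))
    (h2.trans_lt (by nlinarith [card_box (c * b) (2 * b)]))) h1
  refine ⟨P, m, g1, g2, lt_of_le_of_lt ?_ h3⟩
  have d0 : P.degreeOf 0 ≤ c * b := degreeOf_le_iff.2 fun δ hδ => (mem_box.1 (g3 hδ)).1
  have d1 : P.degreeOf 1 ≤ 2 * b := degreeOf_le_iff.2 fun δ hδ => (mem_box.1 (g3 hδ)).2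
  have h4 : 2 * P.degreeOf 0 + c * P.degreeOf 1 ≤ 4 * c * b := by
    nlinarith [Nat.mul_le_mul_left c d1]
  exact_mod_cast h4

end Vale.Agent.N279
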